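import Vale.Agent.P057Z.Sk
import Vale.Agent.P057Z.Ke.Fol
import Vale.Agent.P057Z.Ke.Cr

/-!
# P057Z, block Rg: small vectors, substitutions, chains of subspaces
-/

set_option linter.unusedSectionVars false

open Finset
open scoped BigOperators

noncomputable section

namespace Vale.Agent.P057Z.Rg

open Vale.Agent.P057Z Vale.Agent.P057Z.Ke

variable {Q : ℕ} [Fact Q.Prime] {n n' : ℕ} {ι : Type} [Fintype ι] [DecidableEq ι]

theorem near_bx {T : ℕ} {x : V Q n} (h : x ∈ bx Q n T) : Near x T := by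
  choose v h1 h2 using fun i => mem_image.1 (Fintype.mem_piFinset.1 h i)
  exact ⟨fun i => v i, fun i => by rw [Nat.abs_cast]; exact_mod_cast (mem_range.1 (h1 i)).le,
    funext fun i => by rw [cs, Int.cast_natCast, h2]⟩

theorem near_add {x y : V Q n} {s t : ℕ} (h : Near x s) (h' : Near y t) : Near (x + y) (s + t) :=
  let ⟨v, h1, h2⟩ := h
  let ⟨w, k1, k2⟩ := h'
  ⟨v + w, fun i => (abs_add_le _ _).trans (by push_cast; exact add_le_add (h1 i) (k1 i)),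
    funext fun i => by simp [h2, k2, cs]⟩

theorem near_neg {x : V Q n} {s : ℕ} (h : Near x s) : Near (-x) s :=
  let ⟨v, h1, h2⟩ := h
  ⟨-v, fun i => (abs_neg _).trans_le (h1 i), funext fun i => by simp [h2, cs]⟩

theorem cs_sum (v : Fin n → ℤ) : cs Q v = ∑ m, (v m : ZMod Q) • (Pi.single m 1 : V Q n) :=
  funext fun i => by simp [cs, Finset.sum_apply, Pi.single_apply]

theorem near_map {P : V Q n' →ₗ[ZMod Q] V Q n} {T0 t : ℕ} (h : SmallMap P T0) {x : V Q n'}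
    (hx : Near x t) : Near (P x) (n' * T0 * t) := by
  obtain ⟨v, h1, rfl⟩ := hx
  choose w k1 k2 using h
  refine ⟨fun i => ∑ m, v m * w m i, fun i => (abs_sum_le_sum_abs _ _).trans
    ((sum_le_card_nsmul _ _ ((T0 : ℤ) * t) fun m _ => ?_).trans (by simp [mul_assoc])), ?_⟩
  · rw [abs_mul, mul_comm]
    exact mul_le_mul (k1 m i) (h1 m) (abs_nonneg _) (Nat.cast_nonneg _)
  · rw [cs_sum, map_sum]
    funext i
    simp [k2, cs, Finset.sum_apply]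

theorem nm_lin {θ : V Q n →ₗ[ZMod Q] ZMod Q} {τ : ℝ} (h : ∀ m, nm (θ (Pi.single m 1)) ≤ τ)
    {x : V Q n} {t : ℕ} (hx : Near x t) : nm (θ x) ≤ n * (t * τ) := by
  obtain ⟨v, h1, rfl⟩ := hx
  rw [cs_sum, map_sum]
  refine (nm_sum_le _ _).trans ((sum_le_card_nsmul _ _ ((t : ℝ) * τ) fun m _ => ?_).trans (by simp))
  rw [map_smul, smul_eq_mul]
  exact (nm_int_mul_le _ _).trans (mul_le_mul (by exact_mod_cast h1 m) (h m) (nm_nonneg _)
    (Nat.cast_nonneg _))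

theorem nm_bil {σ : V Q n →ₗ[ZMod Q] V Q n →ₗ[ZMod Q] ZMod Q} {τ : ℝ}
    (h : ∀ i m, nm (σ (Pi.single i 1) (Pi.single m 1)) ≤ τ) {x y : V Q n} {s t : ℕ}
    (hx : Near x s) (hy : Near y t) : nm (σ x y) ≤ n * (s * (n * (t * τ))) :=
  nm_lin (θ := σ.flip y) (fun i => nm_lin (θ := σ (Pi.single i 1)) (h i) hy) hx

theorem l1_smul {w : ι → ℤ} {D : ℝ} (h : ∀ i, |(w i : ℝ)| ≤ D) (s : ZMod Q) :
    l1 (s • cs Q w) ≤ Fintype.card ι * (D * nm s) :=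
  l1_le_card fun i => by
    rw [Pi.smul_apply, smul_eq_mul, mul_comm]
    exact (nm_int_mul_le _ _).trans (mul_le_mul_of_nonneg_right (h i) (nm_nonneg _))

theorem ll_pert {lam ε : ℝ} {Ψ : (ι → ZMod Q) → ℝ} (h : LL lam Ψ) {v : ι → ZMod Q}
    (hv : lam * l1 v ≤ ε) (h0 : 0 ≤ ε) (h1 : ε ≤ 1) (u : ι → ZMod Q) : |Ψ (u + v) - Ψ u| ≤ 2 * ε := by
  have k : Real.exp (lam * l1 v) ≤ 1 + 2 * ε := (Real.exp_le_exp.2 hv).trans (by
    have := Real.abs_exp_sub_one_le (x := ε) (by rwa [abs_of_nonneg h0])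
    rw [abs_of_nonneg h0] at this
    linarith [le_abs_self (Real.exp ε - 1)])
  have k1 := h.lip u v
  have k2 := h.lip (u + v) (-v)
  rw [l1_neg, add_neg_cancel_right] at k2
  rw [abs_le]
  constructor <;> nlinarith [h.pos u, h.le_one u, h.pos (u + v), h.le_one (u + v)]

theorem ll_shift {lam : ℝ} {Ψ : (ι → ZMod Q) → ℝ} (h : LL lam Ψ) (c : ι → ZMod Q) :
    LL lam fun u => Ψ (u + c) :=
  ⟨fun _ => h.pos _, fun _ => h.le_one _, fun u v => by rw [add_right_comm]; exact h.lip _ _⟩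

theorem bx_ne {T : ℕ} (h : 1 ≤ T) : (bx Q n T).Nonempty :=
  Fintype.piFinset_nonempty.2 fun _ => (nonempty_range_iff.2 (by omega)).image _

theorem abs_av {α : Type} {s : Finset α} {g : α → ℝ} {M : ℝ} (hM : 0 ≤ M) (h : ∀ x ∈ s, |g x| ≤ M) :
    |𝔼 x ∈ s, g x| ≤ M := by
  rcases s.eq_empty_or_nonempty with rfl | hs
  · simpa
  · exact abs_le.2 ⟨le_expect hs fun x hx => (abs_le.1 (h x hx)).1,
      expect_le hs fun x hx => (abs_le.1 (h x hx)).2⟩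

theorem fol_re {T t : ℕ} {g : V Q n → ℝ} {M : ℝ} {v : V Q n} (h : ∀ x, |g x| ≤ M)
    (hv : Near v t) (h1 : 1 ≤ T) (h2 : T ≤ Q) :
    𝔼 x ∈ bx Q n T, g x ≤ (𝔼 x ∈ bx Q n T, g (x + v)) + 2 * n * t / T * M := by
  linarith [(abs_le.1 (fol_real h1 h2 hv g h)).1]

/-- substitution in one variable -/
theorem sub1 {α : Type} {s : Finset α} (hs : s.Nonempty) {T t : ℕ} {g : V Q n → ℝ}
    {M : ℝ} {p : α → V Q n} (h : ∀ x, |g x| ≤ M) (hp : ∀ a ∈ s, Near (p a) t) (h1 : 1 ≤ T)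
    (h2 : T ≤ Q) :
    ∃ x, 𝔼 x ∈ bx Q n T, g x ≤ (𝔼 a ∈ s, g (x + p a)) + 2 * n * t / T * M := by
  have k : 𝔼 x ∈ bx Q n T, g x - 2 * n * t / T * M ≤ 𝔼 x ∈ bx Q n T, 𝔼 a ∈ s, g (x + p a) := by
    rw [expect_comm]
    exact le_expect hs fun a ha => sub_le_iff_le_add.2 (fol_re h (hp a ha) h1 h2)
  obtain ⟨x, -, hx⟩ := exists_le_of_le_expect (bx_ne h1) k
  exact ⟨x, sub_le_iff_le_add.1 hx⟩

/-- substitution in two variables -/
theorem sub2 {T T' W T0 : ℕ} {H : V Q n → V Q n → ℝ} {M : ℝ}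
    {P : V Q n' →ₗ[ZMod Q] V Q n} (h : ∀ a b, |H a b| ≤ M) (hP : SmallMap P T0) (h1 : 1 ≤ T)
    (h1' : 1 ≤ T') (hW : 1 ≤ W) (h2 : W * T ≤ Q) :
    ∃ a0 b0, 𝔼 a ∈ bx Q n T, 𝔼 b ∈ bx Q n (W * T), H a b ≤
      (𝔼 a ∈ bx Q n' T', 𝔼 b ∈ bx Q n' (W * T'), H (a0 + P a) (b0 + P b)) +
        4 * n * (n' * T0 * T') / T * M := by
  have hM : 0 ≤ M := (abs_nonneg _).trans (h 0 0)
  obtain ⟨a0, k1⟩ := sub1 (bx_ne (Q := Q) (n := n') h1')
    (g := fun a => 𝔼 b ∈ bx Q n (W * T), H a b) (fun a => abs_av hM fun b _ => h a b)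
    (fun a ha => near_map hP (near_bx ha)) h1 ((Nat.le_mul_of_pos_left T hW).trans h2)
  obtain ⟨b0, k2⟩ := sub1 (bx_ne (Q := Q) (n := n') (Nat.mul_pos hW h1'))
    (g := fun b => 𝔼 a ∈ bx Q n' T', H (a0 + P a) b) (fun b => abs_av hM fun a _ => h _ b)
    (fun a ha => near_map hP (near_bx ha)) (Nat.mul_pos hW h1) h2
  refine ⟨a0, b0, k1.trans ?_⟩
  rw [expect_comm, expect_comm (bx Q n' T')]
  have hW' : (W : ℝ) ≠ 0 := by positivity
  have hT : (T : ℝ) ≠ 0 := by positivity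
  refine (add_le_add_left k2 _).trans (le_of_eq ?_)
  push_cast
  field_simp
  ring

/-- the diagonal map -/
def dg (Q : ℕ) [Fact Q.Prime] (D : Fin n → ℤ) : V Q n →ₗ[ZMod Q] V Q n :=
  LinearMap.pi fun m => (D m : ZMod Q) • LinearMap.proj m

theorem dg_single (D : Fin n → ℤ) (m : Fin n) :
    dg Q D (Pi.single m 1) = (D m : ZMod Q) • (Pi.single m 1 : V Q n) :=
  funext fun i => by by_cases h : i = m <;> simp [dg, h]

theorem dg_inj {D : Fin n → ℤ} (h : ∀ m, (D m : ZMod Q) ≠ 0) : Function.Injective (dg Q D) :=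
  fun _ _ e => funext fun m => mul_left_cancel₀ (h m) (congrFun e m)

theorem dg_small {D : Fin n → ℤ} {t : ℕ} (h : ∀ m, |D m| ≤ t) : SmallMap (dg Q D) t := fun m =>
  ⟨Pi.single m (D m), fun i => by
    by_cases k : i = m
    · rw [k, Pi.single_eq_same]; exact h m
    · rw [Pi.single_eq_of_ne k]; exact Nat.cast_nonneg t,
    funext fun i => by by_cases k : i = m <;> simp [dg, cs, k]⟩

theorem shr_trans {n1 n2 T T1 T2 : ℕ} {R R' s s' Λ Λ' : ℝ} (h : Shr n T n1 T1 R s Λ)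
    (h' : Shr n1 T1 n2 T2 R' s' Λ') (hs : 0 ≤ s) (hs' : 0 ≤ s') (hs1 : s' ≤ 1) (hΛ : 0 ≤ Λ) :
    Shr n T n2 T2 (R + R') (s + s') (Λ + Λ') := by
  obtain ⟨h1, h2, h3, h4, h5⟩ := h
  obtain ⟨k1, k2, k3, k4, k5⟩ := h'
  have := Real.log_natCast_nonneg T
  refine ⟨by linarith, k2.trans h2, k3, k4.trans h4, ?_⟩
  nlinarith [mul_le_mul_of_nonneg_left h5 (sub_nonneg.2 hs1), mul_nonneg (mul_nonneg hs hs') this,
    mul_nonneg hs' hΛ]

theorem shr_mono {n1 T T1 : ℕ} {R R' s s' Λ Λ' : ℝ} (h : Shr n T n1 T1 R s Λ) (hR : R ≤ R')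
    (hs : s ≤ s') (hΛ : Λ ≤ Λ') : Shr n T n1 T1 R' s' Λ' := by
  obtain ⟨h1, h2, h3, h4, h5⟩ := h
  have := Real.log_natCast_nonneg T
  exact ⟨by linarith, h2, h3, h4, by nlinarith⟩

theorem shr_refl {T : ℕ} (h : 1 ≤ T) : Shr n T n T 0 0 0 := ⟨by simp, le_rfl, h, le_rfl, by simp⟩

theorem log_div {T S : ℕ} (h0 : 1 ≤ S) (h : S ≤ T) :
    Real.log T - Real.log S - Real.log 2 ≤ Real.log (T / S : ℕ) := by
  have h1 := Nat.div_pos h h0
  have h2 : T ≤ 2 * (S * (T / S)) := by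
    have := Nat.lt_mul_div_succ T h0
    nlinarith
  have h3 : Real.log T ≤ Real.log (2 * (S * (T / S : ℕ))) :=
    Real.log_le_log (by exact_mod_cast h0.trans h) (by exact_mod_cast h2)
  rw [Real.log_mul two_ne_zero (by positivity), Real.log_mul (by positivity) (by positivity)] at h3
  linarith

/-- the scalar product with `k` -/
def dotL (k : ι → ZMod Q) : (ι → ZMod Q) →ₗ[ZMod Q] ZMod Q where
  toFun u := k ⬝ᵥ u
  map_add' := dotProduct_add k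
  map_smul' c u := dotProduct_smul c k u

theorem mem_perp {K : Submodule (ZMod Q) (ι → ZMod Q)} {u : ι → ZMod Q} :
    u ∈ perp K ↔ ∀ k ∈ K, k ⬝ᵥ u = 0 := by
  simp [perp]

theorem perp_add {K : Submodule (ZMod Q) (ι → ZMod Q)} {u v : ι → ZMod Q} (h : u ∈ perp K)
    (h' : v ∈ perp K) : u + v ∈ perp K :=
  mem_perp.2 fun k hk => by rw [dotProduct_add, mem_perp.1 h k hk, mem_perp.1 h' k hk, add_zero]

theorem perp_smul {K : Submodule (ZMod Q) (ι → ZMod Q)} {u : ι → ZMod Q} (c : ZMod Q)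
    (h : u ∈ perp K) : c • u ∈ perp K :=
  mem_perp.2 fun k hk => by rw [dotProduct_smul, mem_perp.1 h k hk, smul_zero]

theorem perp_sub {K : Submodule (ZMod Q) (ι → ZMod Q)} {u v : ι → ZMod Q} (h : u ∈ perp K)
    (h' : v ∈ perp K) : u - v ∈ perp K :=
  mem_perp.2 fun k hk => by rw [dotProduct_sub, mem_perp.1 h k hk, mem_perp.1 h' k hk, sub_zero]

/-- `K` has a basis of `j` small vectors -/
def Bas (K : Submodule (ZMod Q) (ι → ZMod Q)) (K0 j : ℕ) : Prop :=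
  ∃ k : Fin j → ι → ℤ, (∀ a, k a ∈ Sm ι K0) ∧ LinearIndependent (ZMod Q) (fun a => cs Q (k a)) ∧
    K = Submodule.span (ZMod Q) (Set.range fun a => cs Q (k a))

theorem bas_bot (K0 : ℕ) : Bas (⊥ : Submodule (ZMod Q) (ι → ZMod Q)) K0 0 :=
  ⟨Fin.elim0, fun a => a.elim0, linearIndependent_empty_type, by simp⟩

theorem Bas.le {K : Submodule (ZMod Q) (ι → ZMod Q)} {K0 j : ℕ} (h : Bas K K0 j) :
    j ≤ Fintype.card ι := by
  obtain ⟨k, -, h, -⟩ := h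
  simpa using h.fintype_card_le_finrank

theorem Bas.ext {K : Submodule (ZMod Q) (ι → ZMod Q)} {K0 j : ℕ} (h : Bas K K0 j) (hK : 1 ≤ K0)
    {k0 : ι → ℤ} (h0 : k0 ∈ Sm ι K0) (h1 : cs Q k0 ∉ K) {G : ℕ}
    (hG : (Fintype.card ι).factorial * K0 ^ Fintype.card ι ≤ G) :
    ∃ (K' : Submodule (ZMod Q) (ι → ZMod Q)) (w : ι → ℤ) (D : ℤ), Bas K' K0 (j + 1) ∧
      (D : ZMod Q) ≠ 0 ∧ |D| ≤ G ∧ (∀ i, |(w i : ℝ)| ≤ G) ∧ cs Q w ∈ perp K ∧
      cs Q k0 ⬝ᵥ cs Q w = D ∧ ∀ u ∈ perp K, cs Q k0 ⬝ᵥ u = 0 → u ∈ perp K' := by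
  obtain ⟨k, k1, k2, rfl⟩ := h
  have k3 : (fun a => cs Q ((Fin.cons k0 k : Fin (j + 1) → ι → ℤ) a)) =
      Fin.cons (cs Q k0) fun a => cs Q (k a) := funext fun a => Fin.cases rfl (fun _ => rfl) a
  have k4 : ∀ a, (Fin.cons k0 k : Fin (j + 1) → ι → ℤ) a ∈ Sm ι K0 := Fin.cases h0 k1
  have k5 := k3 ▸ linearIndependent_finCons.2 ⟨k2, h1⟩
  have k6 : Bas _ K0 (j + 1) := ⟨_, k4, k5, rfl⟩
  obtain ⟨D, W, d1, d2, d3, d4⟩ := cramer (Q := Q) (Fin.cons k0 k : Fin (j + 1) → ι → ℤ) hK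
    (fun a i => abs_le.2 (mem_Icc.1 (Fintype.mem_piFinset.1 (k4 a) i))) k5
  have d5 : (((j + 1).factorial * K0 ^ (j + 1) : ℕ) : ℤ) ≤ G := Nat.cast_le.2
    ((Nat.mul_le_mul (Nat.factorial_le k6.le) (Nat.pow_le_pow_right hK k6.le)).trans hG)
  have d6 : ∀ a, cs Q ((Fin.cons k0 k : Fin (j + 1) → ι → ℤ) a) ⬝ᵥ cs Q (W 0) =
      ((if a = 0 then D else 0 : ℤ) : ZMod Q) := fun a => by
    rw [← d4]; simp [cs, dotProduct]
  have sp : ∀ {m : ℕ} (g : Fin m → ι → ZMod Q) (u : ι → ZMod Q), (∀ a, g a ⬝ᵥ u = 0) →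
      u ∈ perp (Submodule.span (ZMod Q) (Set.range g)) := fun g u hu => mem_perp.2 fun x hx => by
    obtain ⟨c, rfl⟩ := (Submodule.mem_span_range_iff_exists_fun _).1 hx
    simp [sum_dotProduct, hu]
  refine ⟨_, W 0, D, k6, d1, d2.trans d5, fun i => by exact_mod_cast (d3 0 i).trans d5,
    sp _ _ fun a => by simpa using d6 a.succ, by simpa using d6 0, fun u hu h => sp _ _ ?_⟩
  exact Fin.cases h fun a => mem_perp.1 hu _ (Submodule.subset_span ⟨a, rfl⟩)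

end Vale.Agent.P057Z.Rg
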