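import Vale.Agent.P057Z.Bas0
import Vale.Agent.P057Z.Rg.Base

/-!
# P057Z, block Rg: from bilinear to quadratic weights
-/

set_option linter.unusedSectionVars false

open Finset
open scoped BigOperators

namespace Vale.Agent.P057Z.Rg

open Vale.Agent.P057Z Vale.Agent.P057Z.Ke

namespace Cell

variable {Q : ℕ} [Fact Q.Prime] {ι : Type} [Fintype ι] [DecidableEq ι]

theorem net {σ : ℝ} (hσ : 0 < σ) :
    ∃ (S : Finset (ι → ZMod Q)) (ρ : (ι → ZMod Q) → ι → ZMod Q), (∀ u, ρ u ∈ S) ∧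
      (∀ u, l1 (u - ρ u) ≤ Fintype.card ι * σ) ∧ (#S : ℝ) ≤ (1 / σ + 1) ^ Fintype.card ι := by
  have hQ : (0 : ℝ) < Q := Qpos
  have h1 := Nat.lt_floor_add_one (σ * Q)
  have h2 := Nat.floor_le (a := σ * Q) (by positivity)
  generalize ⌊σ * Q⌋₊ = l at h1 h2
  refine ⟨Fintype.piFinset fun _ => (range (⌊1 / σ⌋₊ + 1)).image fun j => ((j * (l + 1) : ℕ) : ZMod Q),
    fun u i => (((u i).val / (l + 1) * (l + 1) : ℕ) : ZMod Q), fun u => ?_,
    fun u => l1_le_card fun i => ?_, ?_⟩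
  · refine Fintype.mem_piFinset.2 fun i => mem_image_of_mem _
      (mem_range.2 (Nat.lt_succ_of_le (Nat.le_floor (Nat.cast_div_le.trans ?_))))
    have : ((u i).val : ℝ) < Q := by exact_mod_cast ZMod.val_lt _
    rw [div_le_div_iff₀ (by positivity) hσ]
    push_cast
    nlinarith
  · have k : (u - fun i => (((u i).val / (l + 1) * (l + 1) : ℕ) : ZMod Q)) i =
        (((u i).val % (l + 1) : ℕ) : ZMod Q) := by
      rw [Pi.sub_apply, sub_eq_iff_eq_add, ← Nat.cast_add, Nat.mod_add_div', ZMod.natCast_zmod_val]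
    have k1 : (((u i).val % (l + 1) : ℕ) : ℝ) ≤ l := by
      exact_mod_cast Nat.lt_succ_iff.1 (Nat.mod_lt _ l.succ_pos)
    rw [k]
    exact (nm_natCast_le _).trans ((div_le_iff₀ hQ).2 (k1.trans h2))
  · rw [Fintype.card_piFinset, prod_const, card_univ, Nat.cast_pow]
    refine pow_le_pow_left₀ (Nat.cast_nonneg _) ((Nat.cast_le.2 card_image_le).trans ?_) _
    rw [card_range, Nat.cast_succ]
    exact add_le_add_left (Nat.floor_le (by positivity)) _

theorem point {lam ε f θ : ℝ} {Ω : (ι → ZMod Q) → ℝ} (h : LL lam Ω) {v : ι → ZMod Q}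
    (hv : lam * l1 v ≤ ε / 2) (hε : ε ≤ 1) (hf : 0 ≤ f) (hθ : 0 ≤ θ) (x : ι → ZMod Q) :
    Ω (x + v) * (f - θ) ≤ Real.exp (ε / 2) * (Ω x * (f - (1 - ε) * θ)) := by
  have e := Real.exp_le_exp.2 hv
  have k1 := (h.lip x v).trans (mul_le_mul_of_nonneg_right e (h.pos _).le)
  have k2 := h.lip (x + v) (-v)
  rw [l1_neg, add_neg_cancel_right] at k2
  replace k2 := k2.trans (mul_le_mul_of_nonneg_right e (h.pos _).le)
  have k3 : Real.exp (ε / 2) * Real.exp (ε / 2) * (1 - ε) ≤ 1 := by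
    rw [← Real.exp_add, add_halves, ← le_div_iff₀' (Real.exp_pos _), one_div, ← Real.exp_neg]
    linarith [Real.add_one_le_exp (-ε)]
  have k4 := mul_le_mul_of_nonneg_left k2 (mul_nonneg (Real.exp_pos (ε / 2)).le (sub_nonneg.2 hε))
  have k5 := mul_le_mul_of_nonneg_right k3 (h.pos (x + v)).le
  have k6 : Real.exp (ε / 2) * (1 - ε) * Ω x ≤ Ω (x + v) := by linarith
  nlinarith [mul_le_mul_of_nonneg_right k1 hf, mul_le_mul_of_nonneg_right k6 hθ]

theorem num {ε Y lam s : ℝ} {c : ℕ} (hε : 0 < ε) (hY : ((⌈8 / ε⌉₊ + 7 : ℕ) : ℝ) ≤ Y)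
    (hc : (c : ℝ) ≤ Y) (h0 : 0 ≤ lam) (h1 : lam ≤ Real.exp Y) (hs0 : 0 ≤ s)
    (hs : s ≤ (1 / (ε / (4 * (lam + 1) * (c + 1))) + 1) ^ c) :
    2 * (s * s) ≤ Real.exp (Y ^ (⌈8 / ε⌉₊ + 7)) := by
  have k0 := Nat.le_ceil (8 / ε)
  have k1 : 0 < 8 / ε := by positivity
  push_cast at hY
  have k2 := Real.add_one_le_exp Y
  have k3 : 1 / (ε / (4 * (lam + 1) * (c + 1))) + 1 ≤ Real.exp (3 * Y) := by
    have l1 : (lam + 1) * (c + 1) ≤ 2 * Real.exp Y * Real.exp Y :=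
      mul_le_mul (by linarith) (by linarith) (by positivity) (by positivity)
    have l2 : 1 ≤ Real.exp Y * Real.exp Y := by nlinarith
    rw [show 1 / (ε / (4 * (lam + 1) * (c + 1))) = 8 / ε * ((lam + 1) * (c + 1)) / 2 by
      field_simp; ring, show 3 * Y = Y + (Y + Y) by ring, Real.exp_add, Real.exp_add]
    nlinarith [mul_le_mul_of_nonneg_left l1 k1.le]
  have k4 : s ≤ Real.exp (3 * Y ^ 2) := hs.trans ((pow_le_pow_left₀ (by positivity) k3 c).trans (by
    rw [← Real.exp_nat_mul]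
    exact Real.exp_le_exp.2 (by nlinarith)))
  have k5 : Y ^ 3 ≤ Y ^ (⌈8 / ε⌉₊ + 7) := pow_le_pow_right₀ (by linarith) (by omega)
  refine le_trans ?_ (Real.exp_le_exp.2 (show 1 + (3 * Y ^ 2 + 3 * Y ^ 2) ≤ _ by nlinarith))
  rw [Real.exp_add, Real.exp_add]
  exact mul_le_mul (by linarith [Real.add_one_le_exp 1]) (mul_self_le_mul_self hs0 k4)
    (by positivity) (by positivity)

theorem u01 {α : Type} {u : α → ℝ} (h : U01 u) (p : α → Prop) [DecidablePred p] :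
    U01 fun a => u a * if p a then 1 else 0 := fun a => by
  by_cases k : p a <;> simp [k, h a]

end Cell

open Cell

theorem cell : CELL := by
  intro ε hε hε1
  refine ⟨⌈8 / ε⌉₊ + 7, ?_⟩
  intro Y Q _ n T W ι _ _ f θ lam κ C0 Ω hY hc hQ hf hθ h0 h1 hκ hΩ hs ⟨u, w, α, β, hu, hw, h⟩
  let q : Quad Q n ι := ⟨0, 0, C0, hs⟩
  obtain ⟨S, ρ, r1, r2, r3⟩ := net (Q := Q) (ι := ι)
    (σ := ε / (4 * (lam + 1) * (Fintype.card ι + 1))) (by positivity)
  have k1 := num hε hY hc h0 h1 (Nat.cast_nonneg _) r3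
  have k2 : κ ≤ Real.exp (ε / 2) * ∑ p ∈ S ×ˢ S, 𝔼 a ∈ bx Q n T, 𝔼 b ∈ bx Q n (W * T),
      (u a * if ρ (α a - q.ev a) = p.1 then 1 else 0) *
        (w b * if ρ (β b - q.ev b) = p.2 then 1 else 0) * Ω (q.ev (a + b) + (p.1 + p.2)) *
          (f (a + b) - (1 - ε) * θ) := by
    simp only [← expect_sum_comm, mul_expect]
    refine h.trans (expect_le_expect fun a _ => expect_le_expect fun b _ => ?_)
    rw [sum_eq_single_of_mem (ρ (α a - q.ev a), ρ (β b - q.ev b)) (mem_product.2 ⟨r1 _, r1 _⟩)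
      fun p _ hp => by
        by_cases k : ρ (α a - q.ev a) = p.1
        · rw [if_neg fun k' : ρ (β b - q.ev b) = p.2 => hp (Prod.ext k.symm k'.symm)]
          simp
        · simp [k]]
    have e : C0 a b + α a + β b = q.ev (a + b) + (ρ (α a - q.ev a) + ρ (β b - q.ev b)) +
        (α a - q.ev a - ρ (α a - q.ev a) + (β b - q.ev b - ρ (β b - q.ev b))) := by
      rw [q.ev_add hQ]
      simp only [Quad.ev, q, LinearMap.zero_apply]
      abel
    have k := point hΩ (ε := ε) ((mul_le_mul_of_nonneg_left ((l1_add_le _ _).trans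
      (add_le_add (r2 (α a - q.ev a)) (r2 (β b - q.ev b)))) h0).trans (by
        have := Nat.cast_nonneg (α := ℝ) (Fintype.card ι)
        rw [← two_mul, ← mul_div_assoc, ← mul_div_assoc, ← mul_div_assoc,
          div_le_div_iff₀ (by positivity) two_pos]
        nlinarith [mul_nonneg hε.le h0, mul_nonneg hε.le this])) (by linarith) (hf (a + b)) hθ
      (q.ev (a + b) + (ρ (α a - q.ev a) + ρ (β b - q.ev b)))
    rw [e]
    simp only [if_true, mul_one]
    linarith [mul_le_mul_of_nonneg_left k (mul_nonneg (hu a).1 (hw b).1)]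
  have k3 : Real.exp (ε / 2) ≤ 2 := by
    have := Real.exp_bound_div_one_sub_of_interval (x := ε / 2) (by linarith) (by linarith)
    refine this.trans ?_
    rw [div_le_iff₀ (by linarith)]
    linarith
  obtain ⟨G, hG, k2⟩ : ∃ G, _ = G ∧ κ ≤ Real.exp (ε / 2) * G := ⟨_, rfl, k2⟩
  have k4 : 0 < G := (mul_pos_iff_of_pos_left (Real.exp_pos _)).1 (hκ.trans_le k2)
  obtain ⟨p, -, hp⟩ := exists_le_of_sum_le (f := fun _ => κ * Real.exp (-Y ^ (⌈8 / ε⌉₊ + 7)))
    (s := S ×ˢ S) ⟨(ρ 0, ρ 0), mem_product.2 ⟨r1 _, r1 _⟩⟩ (le_of_le_of_eq (by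
      rw [sum_const, card_product, nsmul_eq_mul, Nat.cast_mul, Real.exp_neg, ← div_eq_mul_inv,
        ← mul_div_assoc, div_le_iff₀ (Real.exp_pos _)]
      have := mul_le_mul_of_nonneg_left (k2.trans (mul_le_mul_of_nonneg_right k3 k4.le))
        (mul_self_nonneg (#S : ℝ))
      nlinarith [mul_le_mul_of_nonneg_left k1 k4.le]) hG.symm)
  exact ⟨q, _, ll_shift hΩ (p.1 + p.2), _, _, u01 hu _, u01 hw _, hp⟩

end Vale.Agent.P057Z.Rg
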