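import Vale.Agent.P057.R2.H279.Ser

/-!
# P057Z: from one scale to all scales, and the sum of the reciprocals
-/

open Finset

noncomputable section

namespace Vale.Agent.P057Z.Rg

/-- no four term progression -/
def Fr4 (A : Finset ℕ) : Prop :=
  ∀ a d : ℕ, 0 < d → ¬ (a ∈ A ∧ a + d ∈ A ∧ a + 2 * d ∈ A ∧ a + 3 * d ∈ A)

/-- the bound at one scale for each density -/
def BOX : Prop :=
  ∃ c : ℕ, 0 < c ∧ ∀ X : ℕ, c ≤ X → ∃ M : ℕ, 0 < M ∧ (M : ℝ) ≤ Real.exp (X ^ c) ∧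
    ∀ A ⊆ range M, Fr4 A → (A.card : ℝ) ≤ 2 * Real.exp (-X) * M

/-- the bound at all scales -/
def R4 : Prop :=
  ∃ c : ℝ, 0 < c ∧ ∃ N₀ : ℕ, ∀ N : ℕ, N₀ ≤ N → ∀ A ⊆ Icc 1 N, Fr4 A →
    (A.card : ℝ) ≤ N * Real.exp (-Real.log N ^ c)

theorem blocks {M N : ℕ} {β : ℝ} (hM : 0 < M) (hN : M ≤ N) (hβ : 0 ≤ β)
    (h : ∀ A ⊆ range M, Fr4 A → (A.card : ℝ) ≤ β * M) {A : Finset ℕ} (hA : A ⊆ Icc 1 N)
    (hF : Fr4 A) : (A.card : ℝ) ≤ 2 * β * N := by
  have h1 : A.card = ∑ j ∈ range (N / M + 1), (A.filter fun a => a / M = j).card :=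
    card_eq_sum_card_fiberwise fun a ha =>
      mem_range.2 (Nat.lt_succ_of_le (Nat.div_le_div_right (mem_Icc.1 (hA ha)).2))
  have h2 : ∀ j, ((A.filter fun a => a / M = j).card : ℝ) ≤ β * M := fun j => by
    have k := h ((range M).filter fun b => M * j + b ∈ A) (filter_subset _ _) fun a d hd k =>
      hF (M * j + a) d hd (by simp only [mem_filter, add_assoc] at k ⊢; tauto)
    refine le_trans (Nat.cast_le.2 (card_le_card_of_injOn (· % M) (fun a ha => ?_)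
      fun a ha b hb e => ?_)) k
    · obtain ⟨k1, k2⟩ := mem_filter.1 ha
      exact mem_filter.2 ⟨mem_range.2 (Nat.mod_lt _ hM), by rw [← k2, Nat.div_add_mod]; exact k1⟩
    · rw [← Nat.div_add_mod a M, ← Nat.div_add_mod b M, (mem_filter.1 ha).2, (mem_filter.1 hb).2]
      exact congrArg _ e
  have h3 : ((N / M + 1 : ℕ) : ℝ) * M ≤ 2 * N := by
    have := Nat.div_mul_le_self N M
    exact_mod_cast (by nlinarith : (N / M + 1) * M ≤ 2 * N)
  rw [h1, Nat.cast_sum]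
  refine (sum_le_card_nsmul _ _ _ fun j _ => h2 j).trans ?_
  rw [card_range, nsmul_eq_mul]
  nlinarith [mul_le_mul_of_nonneg_left h3 hβ]

theorem r4_of (h : BOX) : R4 := by
  obtain ⟨c, hc, h⟩ := h
  have hc' : (0 : ℝ) < c := Nat.cast_pos.2 hc
  have t : Filter.Tendsto (fun N : ℕ => Real.log N ^ (1 / (2 * c : ℝ))) Filter.atTop Filter.atTop :=
    (tendsto_rpow_atTop (by positivity)).comp
      (Real.tendsto_log_atTop.comp tendsto_natCast_atTop_atTop)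
  obtain ⟨N₀, h0⟩ := Filter.eventually_atTop.1 ((t.eventually_ge_atTop (c + 3)).and
    (Filter.eventually_gt_atTop 0))
  refine ⟨1 / (2 * c), by positivity, N₀, fun N hN A hA hF => ?_⟩
  obtain ⟨h1, h2⟩ := h0 N hN
  set y := Real.log N ^ (1 / (2 * c : ℝ)) with hy
  have hN' : (0 : ℝ) < N := Nat.cast_pos.2 h2
  have h3 : (y ^ 2) ^ c = Real.log N := by
    rw [hy, ← pow_mul, ← Real.rpow_natCast, ← Real.rpow_mul (Real.log_natCast_nonneg N)]
    rw [show 1 / (2 * c : ℝ) * ((2 * c : ℕ) : ℝ) = 1 by push_cast; field_simp, Real.rpow_one]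
  obtain ⟨M, k1, k2, k3⟩ := h ⌊y ^ 2⌋₊ (Nat.le_floor (by nlinarith))
  have k4 : (M : ℝ) ≤ N := k2.trans (by
    rw [← Real.exp_log hN', ← h3]
    exact Real.exp_le_exp.2 (pow_le_pow_left₀ (Nat.cast_nonneg _) (Nat.floor_le (sq_nonneg y)) c))
  refine (blocks k1 (Nat.cast_le.1 k4) (by positivity) k3 hA hF).trans ?_
  rw [mul_comm]
  refine mul_le_mul_of_nonneg_left ?_ hN'.le
  have k5 := Nat.lt_floor_add_one (y ^ 2)
  have k6 : Real.exp (-(⌊y ^ 2⌋₊ : ℝ)) * Real.exp 3 ≤ Real.exp (-y) := by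
    rw [← Real.exp_add]; exact Real.exp_le_exp.2 (by nlinarith)
  nlinarith [Real.add_one_le_exp 3, Real.exp_pos (-(⌊y ^ 2⌋₊ : ℝ))]

theorem summ {c : ℝ} (hc : 0 < c) : Summable fun j : ℕ => Real.exp (-(j * Real.log 2) ^ c) := by
  obtain ⟨k, hk⟩ := exists_nat_ge (2 / c)
  rw [div_le_iff₀ hc] at hk
  have l2 := Real.log_two_gt_d9
  rw [← summable_nat_add_iff 2]
  refine .of_nonneg_of_le (fun _ => (Real.exp_pos _).le) (fun j => ?_)
    (((summable_nat_add_iff 2).2 (Real.summable_nat_pow_inv.2 one_lt_two)).mul_left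
      (k.factorial / Real.log 2 ^ 2))
  set t : ℝ := ((j + 2 : ℕ) : ℝ) with ht
  have h0 : 2 ≤ t := by rw [ht]; exact_mod_cast Nat.le_add_left 2 j
  have h1 : 1 ≤ t * Real.log 2 := by nlinarith
  have h2 : (t * Real.log 2) ^ 2 ≤ ((t * Real.log 2) ^ c) ^ k := by
    rw [← Real.rpow_natCast _ k, ← Real.rpow_mul (by linarith), ← Real.rpow_natCast]
    exact Real.rpow_le_rpow_of_exponent_le h1 (by push_cast; linarith)
  have h3 := Real.pow_div_factorial_le_exp _ (Real.rpow_nonneg (by linarith : 0 ≤ t * Real.log 2) c) k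
  have h4 : (0 : ℝ) < k.factorial := Nat.cast_pos.2 k.factorial_pos
  rw [Real.exp_neg, ← div_eq_mul_inv, div_div, ← mul_pow, mul_comm (Real.log 2), ← inv_div]
  exact inv_anti₀ (by positivity) ((div_le_div_of_nonneg_right h2 h4.le).trans h3)

open Classical in
theorem erdos_of (h : R4) (A : Set ℕ) (hA : ¬ Summable fun a : A => 1 / ((a : ℕ) : ℝ)) :
    ∃ a d : ℕ, 0 < d ∧ a ∈ A ∧ a + d ∈ A ∧ a + 2 * d ∈ A ∧ a + 3 * d ∈ A := by
  obtain ⟨c, hc, N₀, h⟩ := h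
  by_contra hn
  refine hA (((P057.H279.summable_series A _ (summ hc) (fun _ => (Real.exp_pos _).le) N₀
    fun j hj => ?_).subtype A).congr fun a => if_pos a.2)
  have := h (2 ^ j) (hj.trans Nat.lt_two_pow_self.le) _ (filter_subset (· ∈ A) _) fun a d hd k =>
    hn ⟨a, d, hd, (mem_filter.1 k.1).2, (mem_filter.1 k.2.1).2, (mem_filter.1 k.2.2.1).2,
      (mem_filter.1 k.2.2.2).2⟩
  rwa [Nat.cast_pow, Real.log_pow, Nat.cast_ofNat] at this

end Vale.Agent.P057Z.Rg
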