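import Vale.Agent.P057Z.Bas0
import Vale.Agent.P057Z.Ke.Fol
import Vale.Agent.P057Z.Rg.Num

/-!
# P057Z: the iteration of the density increment
-/

open Finset
open scoped BigOperators

noncomputable section

namespace Vale.Agent.P057Z.Rg

namespace It

/-- the increment step with given constants -/
def Step (ε : ℝ) (C : ℕ) : Prop := ∀ (X Y Z : ℝ) (Q : ℕ) [Fact Q.Prime] (n J T : ℕ)
    (ι : Type) [Fintype ι] [DecidableEq ι] (f : V Q n → ℝ) (lam κ : ℝ) (q : Quad Q n ι)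
    (Ψ : (ι → ZMod Q) → ℝ),
    Par C X Y Z → (n : ℝ) ≤ Z → 1 ≤ J → (J : ℝ) ≤ Z → J * Y ^ C ≤ n → (Fintype.card ι : ℝ) ≤ Y →
    Z ^ C ≤ Real.log T → T ^ 2 ≤ Q → (∀ x, 0 ≤ f x ∧ f x ≤ Real.exp X) → Free f →
    1 ≤ lam → lam ≤ Real.exp Y → LL lam Ψ → Real.exp (-Z) ≤ κ →
    κ ≤ 𝔼 x ∈ bx Q n T, Ψ (q.ev x) * (f x - 1) →
    Inc f (1 + ε) T (J * Y ^ C) (1 / J) (Z ^ C) (Fintype.card ι + X ^ C)
      (lam * Real.exp (X ^ C)) (Real.exp (-Y ^ C))

variable {Q : ℕ} [Fact Q.Prime] {n T : ℕ}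

theorem iter {ε X Y Z : ℝ} {C m : ℕ} (e0 : 0 < ε) (e1 : ε ≤ 1) (hS : Step ε C) (hP : Par C X Y Z)
    (X0 : 0 ≤ X) (hn : (n : ℝ) ≤ Z) (hm : 1 ≤ m) (hJ : ((2 * m : ℕ) : ℝ) ≤ Z)
    (h1 : (m + 1) * ((2 * m : ℕ) * Y ^ C) ≤ n) (h2 : m * X ^ C ≤ Y)
    (h3 : 2 * (m + 1) * Z ^ C ≤ Real.log T) (hQ : T ^ 2 ≤ Q) (h4 : Y ^ C + 1 ≤ Z) (hT : 1 ≤ T)
    (h5 : Real.exp X ≤ (1 + ε) ^ m) {f : V Q n → ℝ} (f0 : ∀ x, 0 ≤ f x ∧ f x ≤ Real.exp X)
    (fr : Free f) (fm : 1 ≤ 𝔼 x ∈ bx Q n T, (f x - 1)) : False := by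
  have Y0 : 0 ≤ Y := X0.trans hP.2.1
  have Z0 : 0 ≤ Z := Y0.trans hP.2.2.1
  have m0 : (1 : ℝ) ≤ m := Nat.one_le_cast.2 hm
  have key : ∀ k ≤ m, ∃ (n' T' : ℕ) (ι : Type) (_ : Fintype ι) (_ : DecidableEq ι)
      (q : Quad Q n' ι) (Ψ : (ι → ZMod Q) → ℝ) (g : V Q n' → ℝ),
      Shr n T n' T' (k * ((2 * m : ℕ) * Y ^ C)) (k * (1 / (2 * m : ℕ))) (k * Z ^ C) ∧
      (Fintype.card ι : ℝ) ≤ k * X ^ C ∧ LL (Real.exp (k * X ^ C)) Ψ ∧ Free g ∧
      (∀ x, 0 ≤ g x ∧ g x ≤ Real.exp X / (1 + ε) ^ k) ∧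
      Real.exp (-Z) ≤ 𝔼 x ∈ bx Q n' T', Ψ (q.ev x) * (g x - 1) := by
    intro k
    induction k with
    | zero =>
      refine fun _ => ⟨n, T, Fin 0, inferInstance, inferInstance, ⟨0, 0, 0, fun _ _ => rfl⟩,
        fun _ => 1, f, ⟨by simp, le_rfl, hT, le_rfl, by simp⟩, by simp,
        ⟨fun _ => one_pos, fun _ => le_rfl, fun u v => by simp [l1]⟩, fr, by simpa using f0, ?_⟩
      simp only [one_mul]
      exact (Real.exp_le_one_iff.2 (by linarith)).trans fm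
    | succ k ih =>
      intro hk
      obtain ⟨n', T', ι, i1, i2, q, Ψ, g, s1, s2, s3, s4, s5, s6⟩ := ih (by omega)
      have k0 : (0 : ℝ) ≤ k := Nat.cast_nonneg k
      have k1 : (k : ℝ) + 1 ≤ m := by exact_mod_cast hk
      have p1 : 0 ≤ ((2 * m : ℕ) : ℝ) * Y ^ C := by positivity
      have p2 : 0 ≤ X ^ C := by positivity
      have p3 : 0 ≤ Z ^ C := by positivity
      have p4 : (k : ℝ) * (1 / (2 * m : ℕ)) ≤ 1 / 2 := by
        push_cast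
        rw [mul_one_div, div_le_div_iff₀ (by linarith) two_pos]
        linarith
      have p5 : k * X ^ C ≤ Y := (mul_le_mul_of_nonneg_right (by linarith) p2).trans h2
      have p6 : 0 ≤ Real.log T := Real.log_natCast_nonneg T
      obtain ⟨n'', T'', ι', j1, j2, x0, P, q', Ψ', t1, t2, t3, t4, t5⟩ :=
        hS X Y Z Q n' (2 * m) T' ι g _ _ q Ψ hP ((Nat.cast_le.2 s1.2.1).trans hn) (by omega) hJ
          (by nlinarith [s1.1]) (s2.trans p5) (by nlinarith [s1.2.2.2.2])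
          ((Nat.pow_le_pow_left s1.2.2.2.1 2).trans hQ)
          (fun x => ⟨(s5 x).1, (s5 x).2.trans (div_le_self (Real.exp_pos _).le
            (one_le_pow₀ (by linarith)))⟩) s4 (Real.one_le_exp (by positivity))
          (Real.exp_le_exp.2 p5) s3 le_rfl s6
      have e2 : 0 < 1 + ε := by linarith
      refine ⟨n'', T'', ι', j1, j2, q', Ψ', fun z => g (x0 + P z) / (1 + ε), ?_, ?_, ?_,
        fun x v hv => ?_, fun x => ⟨div_nonneg (s5 _).1 e2.le, ?_⟩, ?_⟩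
      · refine (s1.trans t2 (by positivity) (by positivity) ?_ (by positivity)).mono
          (le_of_eq ?_) (le_of_eq ?_) (le_of_eq ?_)
        · push_cast
          rw [div_le_one (by linarith)]
          linarith
        all_goals rw [Nat.cast_succ]; ring
      · rw [Nat.cast_succ]; linarith
      · rwa [← Real.exp_add, ← add_one_mul, ← Nat.cast_succ] at t4
      · have := s4.comp x0 P t1 x v hv
        simp only [div_mul_div_comm, this, zero_div]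
      · rw [pow_succ, ← div_div]
        exact div_le_div_of_nonneg_right (s5 _).2 e2.le
      · have e : 𝔼 x ∈ bx Q n'' T'', Ψ' (q'.ev x) * (g (x0 + P x) / (1 + ε) - 1) =
            (𝔼 x ∈ bx Q n'' T'', Ψ' (q'.ev x) * (g (x0 + P x) - (1 + ε))) / (1 + ε) := by
          rw [expect_div]
          exact expect_congr rfl fun x _ => by field_simp
        rw [e, le_div_iff₀ e2]
        refine le_trans ?_ t5
        have a1 : Real.exp (-Z) * Real.exp 1 ≤ Real.exp (-Y ^ C) := by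
          rw [← Real.exp_add]; exact Real.exp_le_exp.2 (by linarith)
        nlinarith [Real.add_one_le_exp 1, Real.exp_pos (-Z)]
  obtain ⟨n', T', ι, i1, i2, q, Ψ, g, s1, -, s3, -, s5, s6⟩ := key m le_rfl
  refine absurd (s6.trans (expect_le (Ke.bx_nonempty s1.2.2.1) fun x _ => ?_))
    (not_le.2 (Real.exp_pos _))
  exact mul_nonpos_of_nonneg_of_nonpos (s3.pos _).le (sub_nonpos.2 ((s5 x).2.trans
    (div_le_one_of_le₀ h5 (by positivity))))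

/-- the number with the given digits -/
def Phi (T : ℕ) (x : V Q n) : ℕ := ∑ i : Fin n, (x i).val * T ^ (i : ℕ)

theorem val_lt (hT : T ≤ Q) {x : V Q n} (hx : x ∈ bx Q n T) (i : Fin n) : (x i).val < T := by
  obtain ⟨t, h1, h2⟩ := Ke.mem_bx.1 hx i
  rwa [← h2, ZMod.val_cast_of_lt (h1.trans_le hT)]

theorem phi_inj (hT : T ≤ Q) {x y : V Q n} (hx : x ∈ bx Q n T) (hy : y ∈ bx Q n T)
    (h : Phi T x = Phi T y) : x = y := by
  have k : (fun i => (⟨(x i).val, val_lt hT hx i⟩ : Fin T)) = fun i => ⟨(y i).val, val_lt hT hy i⟩ :=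
    finFunctionFinEquiv.injective (Fin.ext h)
  exact funext fun i => ZMod.val_injective Q (congrArg Fin.val (congrFun k i))

theorem phi_surj (hT : T ≤ Q) {a : ℕ} (ha : a < T ^ n) : ∃ x ∈ bx Q n T, Phi T x = a := by
  obtain ⟨t, ht⟩ := finFunctionFinEquiv.surjective (⟨a, ha⟩ : Fin (T ^ n))
  refine ⟨_, Ke.cast_mem_bx fun i => (t i).2, Eq.trans ?_ (congrArg Fin.val ht)⟩
  exact sum_congr rfl fun i _ => by rw [ZMod.val_cast_of_lt ((t i).2.trans_le hT)]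

theorem phi_add (hT : 2 * T ≤ Q) {x y z : V Q n} (hx : x ∈ bx Q n T) (hy : y ∈ bx Q n T)
    (hz : z ∈ bx Q n T) (h : x + z = y + y) : Phi T x + Phi T z = Phi T y + Phi T y := by
  simp only [Phi, ← sum_add_distrib, ← add_mul]
  refine sum_congr rfl fun i _ => congrArg (· * _) ?_
  have k1 := val_lt (by omega) hx i
  have k2 := val_lt (by omega) hy i
  have k3 := val_lt (by omega) hz i
  rw [← ZMod.val_add_of_lt (by omega), ← ZMod.val_add_of_lt (by omega)]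
  exact congrArg ZMod.val (congrFun h i)

theorem start (hT : 2 * T ≤ Q) (T1 : 1 ≤ T) {X : ℝ} {A : Finset ℕ} (hA : A ⊆ range (T ^ n))
    (hF : Fr4 A) (hc : 2 * Real.exp (-X) * (T ^ n : ℕ) ≤ A.card) :
    ∃ f : V Q n → ℝ, (∀ x, 0 ≤ f x ∧ f x ≤ Real.exp X) ∧ Free f ∧
      1 ≤ 𝔼 x ∈ bx Q n T, (f x - 1) := by
  have hQ : T ≤ Q := by omega
  have e0 := Real.exp_pos X
  refine ⟨fun x => if x ∈ bx Q n T ∧ Phi T x ∈ A then Real.exp X else 0, fun x => ?_,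
    fun x v hv => ?_, ?_⟩
  · beta_reduce
    split_ifs
    exacts [⟨e0.le, le_rfl⟩, ⟨le_rfl, e0.le⟩]
  · by_contra h
    simp only [mul_eq_zero, ite_eq_right_iff, not_or, Classical.not_imp] at h
    obtain ⟨⟨⟨⟨⟨a0, b0⟩, -⟩, ⟨a1, b1⟩, -⟩, ⟨a2, b2⟩, -⟩, ⟨a3, b3⟩, -⟩ := h
    have k1 := phi_add hT a0 a1 a2 (by abel)
    have k2 := phi_add hT a1 a2 a3 (by abel)
    have k3 : Phi T x ≠ Phi T (x + v) := fun e => hv (by simpa using phi_inj hQ a0 a1 e)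
    generalize Phi T x = p0, Phi T (x + v) = p1, Phi T (x + v + v) = p2,
      Phi T (x + v + v + v) = p3 at *
    rcases lt_or_gt_of_ne k3 with k | k
    · exact hF p0 (p1 - p0) (by omega) ⟨b0, by rwa [show p0 + (p1 - p0) = p1 by omega],
        by rwa [show p0 + 2 * (p1 - p0) = p2 by omega],
        by rwa [show p0 + 3 * (p1 - p0) = p3 by omega]⟩
    · exact hF p3 (p0 - p1) (by omega) ⟨b3, by rwa [show p3 + (p0 - p1) = p2 by omega],
        by rwa [show p3 + 2 * (p0 - p1) = p1 by omega],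
        by rwa [show p3 + 3 * (p0 - p1) = p0 by omega]⟩
  · have k : A.card ≤ ((bx Q n T).filter fun x => x ∈ bx Q n T ∧ Phi T x ∈ A).card :=
      card_le_card_of_surjOn (Phi T) fun a ha => by
        obtain ⟨x, h1, h2⟩ := phi_surj (Q := Q) hQ (mem_range.1 (hA ha))
        exact ⟨x, mem_coe.2 (mem_filter.2 ⟨h1, h1, h2 ▸ ha⟩), h2⟩
    have k0 : (0 : ℝ) < (T ^ n : ℕ) := by positivity
    rw [expect_sub_distrib, expect_const (Ke.bx_nonempty T1), expect_eq_sum_div_card,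
      Ke.card_bx hQ, ← sum_filter, sum_const, nsmul_eq_mul, le_sub_iff_add_le, le_div_iff₀ k0]
    have k1 := mul_le_mul_of_nonneg_right (hc.trans (Nat.cast_le.2 k)) e0.le
    have k2 : Real.exp (-X) * Real.exp X = 1 := by rw [← Real.exp_add]; simp
    refine le_trans (le_of_eq ?_) k1
    linear_combination (-2 * ((T ^ n : ℕ) : ℝ)) * k2

theorem nums (C : ℕ) : ∃ b : ℕ, ∀ X n Z : ℕ, 2 ≤ X →
    n = (X ^ 2 + 1) * (2 * X ^ 2 * (X ^ (C + 2)) ^ C) → Z = n + X ^ (C + 2) →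
    Z ^ C ≤ X ^ b ∧ n * (2 * (X ^ 2 + 1) * Z ^ C + 1) ≤ X ^ b := by
  set a := (C + 2) * (C + 1) + 6 with ha
  refine ⟨a + ((a + 1) * C + 5), fun X n Z hX hn hZ => ?_⟩
  have d : ∀ k, X ^ k + X ^ k ≤ X ^ (k + 1) := fun k => by
    rw [pow_succ, ← mul_two]; exact Nat.mul_le_mul_left _ hX
  have u : ∀ {k l}, k ≤ l → X ^ k ≤ X ^ l := fun h => Nat.pow_le_pow_right (by omega) h
  have o : ∀ k, 1 ≤ X ^ k := fun k => Nat.one_le_pow _ _ (by omega)
  have h1 : X ^ 2 + 1 ≤ X ^ 3 := (Nat.add_le_add_left (o 2) _).trans (d 2)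
  have h2 : 2 * X ^ 2 ≤ X ^ 3 := by rw [two_mul]; exact d 2
  have h3 : n ≤ X ^ a := by
    refine hn.le.trans ((Nat.mul_le_mul h1 (Nat.mul_le_mul_right _ h2)).trans ?_)
    rw [← pow_mul, ← pow_add, ← pow_add]
    exact u (by rw [ha]; nlinarith)
  have h4 : Z ≤ X ^ (a + 1) :=
    hZ.le.trans ((Nat.add_le_add h3 (u (by rw [ha]; nlinarith))).trans (d a))
  have h5 : Z ^ C ≤ X ^ ((a + 1) * C) := by rw [pow_mul]; exact Nat.pow_le_pow_left h4 C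
  have h6 : 2 * (X ^ 2 + 1) * Z ^ C ≤ X ^ ((a + 1) * C + 4) := by
    rw [pow_add _ _ 4, mul_comm]
    exact Nat.mul_le_mul h5 ((Nat.mul_le_mul_left 2 h1).trans (by rw [two_mul]; exact d 3))
  refine ⟨h5.trans (u (by omega)), ?_⟩
  rw [pow_add]
  exact Nat.mul_le_mul h3 ((Nat.add_le_add h6 (o _)).trans (d _))

end It

open It in
theorem box_of (h : MAIN) : BOX := by
  obtain ⟨ε, e0, e1, C, hS⟩ := h
  obtain ⟨b, hb⟩ := nums C
  refine ⟨(b + 1).factorial + b + C + ⌈2 / ε⌉₊ + 2, by omega, fun X hX => ?_⟩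
  obtain ⟨n, hn⟩ : ∃ n, n = (X ^ 2 + 1) * (2 * X ^ 2 * (X ^ (C + 2)) ^ C) := ⟨_, rfl⟩
  obtain ⟨Z, hZ⟩ : ∃ Z, Z = n + X ^ (C + 2) := ⟨_, rfl⟩
  obtain ⟨b1, b2⟩ := hb X n Z (by omega) hn hZ
  obtain ⟨L, hL⟩ : ∃ L, L = 2 * (X ^ 2 + 1) * Z ^ C := ⟨_, rfl⟩
  have x1 : 1 ≤ X := by omega
  have x0 : (0 : ℝ) < X := Nat.cast_pos.2 x1
  have T0 : 0 < ⌈Real.exp L⌉₊ := Nat.ceil_pos.2 (Real.exp_pos _)
  have T1 : (⌈Real.exp L⌉₊ : ℝ) ≤ Real.exp (L + 1) := by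
    rw [Real.exp_add]
    nlinarith [Nat.ceil_lt_add_one (Real.exp_pos (L : ℝ)).le, Real.add_one_le_exp 1,
      Real.one_le_exp (Nat.cast_nonneg L)]
  have T2 : (L : ℝ) ≤ Real.log ⌈Real.exp L⌉₊ :=
    (Real.le_log_iff_exp_le (Nat.cast_pos.2 T0)).2 (Nat.le_ceil _)
  generalize ⌈Real.exp L⌉₊ = T at *
  refine ⟨T ^ n, by positivity, ?_, fun A hA hF => ?_⟩
  · rw [Nat.cast_pow]
    refine (pow_le_pow_left₀ (Nat.cast_nonneg _) T1 n).trans ?_
    rw [← Real.exp_nat_mul]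
    refine Real.exp_le_exp.2 ?_
    exact_mod_cast (hL ▸ b2).trans (Nat.pow_le_pow_right x1 (by omega))
  by_contra hc
  obtain ⟨Q, q1, q2⟩ := Nat.exists_infinite_primes (T ^ 2 + 2 * T)
  have : Fact Q.Prime := ⟨q2⟩
  obtain ⟨f, f0, fr, fm⟩ := start (Q := Q) (by omega) T0 hA hF (not_le.1 hc).le
  have o : ∀ k, 1 ≤ X ^ k := fun k => Nat.one_le_pow _ _ x1
  have o' : 1 ≤ (X ^ (C + 2)) ^ C := Nat.one_le_pow _ _ (o _)
  have n1 : 2 * X ^ 2 * (X ^ (C + 2)) ^ C ≤ n := hn ▸ Nat.le_mul_of_pos_left _ (Nat.succ_pos _)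
  have n2 : 2 * X ^ 2 ≤ n := (Nat.le_mul_of_pos_right _ o').trans n1
  have n3 : (X ^ (C + 2)) ^ C ≤ n := (Nat.le_mul_of_pos_left _ (by positivity)).trans n1
  refine iter (X := X) (Y := (X ^ (C + 2) : ℕ)) (Z := Z) (m := X ^ 2) e0 e1 hS
    ⟨Nat.cast_le.2 (by omega), Nat.cast_le.2 (Nat.le_self_pow (by omega) X),
      Nat.cast_le.2 (by omega), ?_⟩ x0.le (Nat.cast_le.2 (by omega)) (o 2)
    (Nat.cast_le.2 (by omega)) (by exact_mod_cast hn.ge) (le_of_eq (by push_cast; ring))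
    (le_trans (by exact_mod_cast hL.ge) T2) (by omega)
    (by have := o (C + 2); exact_mod_cast (by omega : (X ^ (C + 2)) ^ C + 1 ≤ Z)) T0 ?_ f0 fr fm
  · refine le_trans ?_ (Real.pow_div_factorial_le_exp _ x0.le (b + 1))
    rw [le_div_iff₀ (Nat.cast_pos.2 (Nat.factorial_pos _)), pow_succ]
    exact_mod_cast Nat.mul_le_mul b1 (by omega : (b + 1).factorial ≤ X)
  · have k1 : Real.exp (ε / 2) ≤ 1 + ε := by
      have k2 : Real.exp (ε / 2) * Real.exp (-(ε / 2)) = 1 := by rw [← Real.exp_add]; simp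
      have k3 := mul_le_mul_of_nonneg_left (Real.add_one_le_exp (-(ε / 2))) (Real.exp_pos (ε / 2)).le
      by_contra k4
      nlinarith [mul_lt_mul_of_pos_right (not_le.1 k4) (by linarith : 0 < -(ε / 2) + 1)]
    refine le_trans ?_ (pow_le_pow_left₀ (Real.exp_pos _).le k1 _)
    rw [← Real.exp_nat_mul]
    have k5 : 2 / ε ≤ X := (Nat.le_ceil _).trans (Nat.cast_le.2 (by omega))
    rw [div_le_iff₀ e0] at k5
    refine Real.exp_le_exp.2 ?_
    push_cast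
    nlinarith

theorem result_of (h : MAIN) : RESULT :=
  ⟨r4_of (box_of h), fun A _ hA => erdos_of (r4_of (box_of h)) A hA⟩

end Vale.Agent.P057Z.Rg
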