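import Vale.Agent.P057Z.Rg.Base

/-!
# P057Z, block Rg: a biased bilinear phase has a biased antisymmetric part
-/

set_option linter.unusedSectionVars false

open Finset
open scoped BigOperators

noncomputable section

namespace Vale.Agent.P057Z.Rg

open Vale.Agent.P057Z Vale.Agent.P057Z.Ke

namespace Bias

theorem nexp {α : Type} (s : Finset α) (f : α → ℂ) : ‖𝔼 i ∈ s, f i‖ ≤ 𝔼 i ∈ s, ‖f i‖ :=
  RCLike.norm_expect_le (K := ℂ)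

theorem mul1 {a b : ℂ} (ha : ‖a‖ ≤ 1) (hb : ‖b‖ ≤ 1) : ‖a * b‖ ≤ 1 := by
  rw [norm_mul]
  exact mul_le_one₀ ha (norm_nonneg _) hb

theorem cj1 {a : ℂ} (ha : ‖a‖ ≤ 1) : ‖(starRingEnd ℂ) a‖ ≤ 1 := by
  rwa [Complex.norm_conj]

/-- Cauchy-Schwarz in the second variable -/
theorem cs2 {α β : Type} (s : Finset α) {t : Finset β} (ht : t.Nonempty) (f : α → β → ℂ)
    {y : β → ℂ} (hy : ∀ x, ‖y x‖ ≤ 1) :
    ‖𝔼 a ∈ s, 𝔼 b ∈ t, y b * f a b‖ ^ 2 ≤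
      ‖𝔼 a ∈ s, 𝔼 a' ∈ s, 𝔼 b ∈ t, f a b * (starRingEnd ℂ) (f a' b)‖ := by
  have h1 : ‖𝔼 a ∈ s, 𝔼 b ∈ t, y b * f a b‖ ≤ 𝔼 b ∈ t, ‖𝔼 a ∈ s, f a b‖ * 1 := by
    rw [expect_comm]
    refine (nexp _ _).trans (expect_le_expect fun b _ => ?_)
    rw [← mul_expect, norm_mul, mul_comm]
    exact mul_le_mul_of_nonneg_left (hy b) (norm_nonneg _)
  have h2 := expect_mul_sq_le_sq_mul_sq t (fun b => ‖𝔼 a ∈ s, f a b‖) fun _ => (1 : ℝ)
  rw [expect_const ht, one_pow, mul_one] at h2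
  have h3 : 𝔼 a ∈ s, 𝔼 a' ∈ s, 𝔼 b ∈ t, f a b * (starRingEnd ℂ) (f a' b) =
      ((𝔼 b ∈ t, ‖𝔼 a ∈ s, f a b‖ ^ 2 : ℝ) : ℂ) := by
    rw [Complex.ofReal_expect, expect_congr rfl fun a _ => expect_comm s t _, expect_comm]
    refine expect_congr rfl fun b _ => ?_
    rw [← expect_mul_expect, ← map_expect (starRingEnd ℂ), Complex.mul_conj,
      Complex.normSq_eq_norm_sq]
  rw [h3, Complex.norm_real]
  exact ((pow_le_pow_left₀ (norm_nonneg _) h1 2).trans h2).trans (le_abs_self _)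

end Bias

open Bias in
theorem bias {Q : ℕ} [Fact Q.Prime] {n T W : ℕ} {δ : ℝ}
    (γ : V Q n →ₗ[ZMod Q] V Q n →ₗ[ZMod Q] ZMod Q) {u y g : V Q n → ℂ} (hu : ∀ x, ‖u x‖ ≤ 1)
    (hy : ∀ x, ‖y x‖ ≤ 1) (hg : ∀ x, ‖g x‖ ≤ 1) (hT : 1 ≤ T) (hW : 1 ≤ W) (hQ : W * T ≤ Q)
    (hδ : 0 ≤ δ) (hn : 8 * (n : ℝ) ≤ δ ^ 2 * W)
    (h : δ ≤ ‖𝔼 a ∈ bx Q n T, 𝔼 b ∈ bx Q n (W * T), u a * y b * g (a + b) * ch (γ a b)‖) :
    ∃ u' v' : V Q n → ℂ, (∀ x, ‖u' x‖ ≤ 1) ∧ (∀ x, ‖v' x‖ ≤ 1) ∧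
      δ ^ 2 / 2 ≤ ‖𝔼 a ∈ bx Q n T, 𝔼 a' ∈ bx Q n T, u' a * v' a' * ch ((γ.flip - γ) a a')‖ := by
  have hWT : 1 ≤ W * T := Nat.mul_pos hW hT
  have hA := bx_ne (Q := Q) (n := n) hT
  have hB := bx_ne (Q := Q) (n := n) hWT
  obtain ⟨f, hf⟩ : ∃ f : V Q n → V Q n → ℂ, ∀ a b, f a b = u a * g (a + b) * ch (γ a b) :=
    ⟨_, fun _ _ => rfl⟩
  have hf1 : ∀ a b, ‖f a b‖ ≤ 1 := fun a b => by
    rw [hf]
    exact mul1 (mul1 (hu _) (hg _)) (norm_ch _).le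
  have h1 := cs2 (bx Q n T) hB f hy
  have e1 : ∀ a b, u a * y b * g (a + b) * ch (γ a b) = y b * f a b := fun a b => by
    rw [hf]
    ring
  simp only [e1] at h
  have h2 := (pow_le_pow_left₀ hδ h 2).trans h1
  have h3 : ‖(𝔼 a ∈ bx Q n T, 𝔼 a' ∈ bx Q n T, 𝔼 z ∈ bx Q n (W * T),
      f a (z + -(a + a')) * (starRingEnd ℂ) (f a' (z + -(a + a')))) -
      𝔼 a ∈ bx Q n T, 𝔼 a' ∈ bx Q n T, 𝔼 b ∈ bx Q n (W * T),
        f a b * (starRingEnd ℂ) (f a' b)‖ ≤ δ ^ 2 / 2 := by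
    rw [← expect_sub_distrib]
    refine (nexp _ _).trans (expect_le hA fun a ha => ?_)
    rw [← expect_sub_distrib]
    refine (nexp _ _).trans (expect_le hA fun a' ha' => ?_)
    refine (fol hWT hQ (Rg.near_neg (Rg.near_add (near_bx ha) (near_bx ha')))
      (fun b => f a b * (starRingEnd ℂ) (f a' b)) fun b => mul1 (hf1 a b) (cj1 (hf1 a' b))).trans ?_
    have hW' : (0 : ℝ) < W := by exact_mod_cast hW
    have hT' : (0 : ℝ) < T := by exact_mod_cast hT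
    have e : 2 * (n : ℝ) * ((T + T : ℕ) : ℝ) / ((W * T : ℕ) : ℝ) * 1 = 4 * n / W := by
      push_cast
      field_simp
      ring
    rw [e, div_le_iff₀ hW']
    linarith
  have h4 : δ ^ 2 / 2 ≤ 𝔼 z ∈ bx Q n (W * T), ‖𝔼 a ∈ bx Q n T, 𝔼 a' ∈ bx Q n T,
      f a (z + -(a + a')) * (starRingEnd ℂ) (f a' (z + -(a + a')))‖ := by
    refine le_trans ?_ (nexp _ _)
    rw [expect_comm, expect_congr rfl fun a _ => expect_comm (bx Q n (W * T)) (bx Q n T) _]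
    have h5 := norm_sub_norm_le
      (𝔼 a ∈ bx Q n T, 𝔼 a' ∈ bx Q n T, 𝔼 b ∈ bx Q n (W * T), f a b * (starRingEnd ℂ) (f a' b))
      (𝔼 a ∈ bx Q n T, 𝔼 a' ∈ bx Q n T, 𝔼 z ∈ bx Q n (W * T),
        f a (z + -(a + a')) * (starRingEnd ℂ) (f a' (z + -(a + a'))))
    rw [norm_sub_rev] at h5
    linarith
  obtain ⟨z, -, hz⟩ := exists_le_of_le_expect hB h4
  refine ⟨fun a => u a * (starRingEnd ℂ) (g (z - a)) * ch (γ a z - γ a a),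
    fun a' => (starRingEnd ℂ) (u a') * g (z - a') * ch (γ a' a' - γ a' z),
    fun x => mul1 (mul1 (hu _) (cj1 (hg _))) (norm_ch _).le,
    fun x => mul1 (mul1 (cj1 (hu _)) (hg _)) (norm_ch _).le, hz.trans (le_of_eq ?_)⟩
  refine congrArg _ (expect_congr rfl fun a _ => expect_congr rfl fun a' _ => ?_)
  have e2 : a + (z + -(a + a')) = z - a' := by abel
  have e3 : a' + (z + -(a + a')) = z - a := by abel
  have e4 : ch (γ a (z + -(a + a'))) * ch (-γ a' (z + -(a + a'))) =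
      ch (γ a z - γ a a) * ch (γ a' a' - γ a' z) * ch ((γ.flip - γ) a a') := by
    rw [← ch_add, ← ch_add, ← ch_add]
    refine congrArg ch ?_
    simp only [map_add, map_neg, LinearMap.sub_apply, LinearMap.flip_apply]
    ring
  rw [hf, hf, e2, e3, map_mul, map_mul, ← ch_neg]
  linear_combination (u a * g (z - a') * (starRingEnd ℂ) (u a') * (starRingEnd ℂ) (g (z - a))) * e4

end Vale.Agent.P057Z.Rg
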