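import Vale.Agent.P057Z.Rg.Rg2
import Vale.Agent.P057Z.Rg.Bias
import Vale.Agent.P057Z.Ke.Pop

/-!
# P057Z, block Rg: the bilinear weight may be taken symmetric
-/

set_option linter.unusedSectionVars false

open Finset
open scoped BigOperators

noncomputable section

namespace Vale.Agent.P057Z.Rg

open Vale.Agent.P057Z Vale.Agent.P057Z.Ke

variable {Q : ℕ} [Fact Q.Prime] {n : ℕ} {ι : Type} [Fintype ι] [DecidableEq ι]

open Classical in
theorem freq {α : Type} {s : Finset α} (hs : s.Nonempty) {H : α → ℝ} {F : α → ι → ZMod Q}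
    {Ω : (ι → ZMod Q) → ℝ} {K : Submodule (ZMod Q) (ι → ZMod Q)} {K0 : ℕ} {Mf η M δ : ℝ}
    (hF : FA Ω K0 Mf η) (hH : ∀ p, |H p| ≤ M) (hδ : 0 ≤ δ)
    (h : ∀ k ∈ Sm ι K0, cs Q k ∉ K → ‖𝔼 p ∈ s, (H p : ℂ) * ch (cs Q k ⬝ᵥ F p)‖ ≤ δ) :
    𝔼 p ∈ s, H p * Ω (F p) ≤ (𝔼 p ∈ s, H p * avg K Ω (F p)) + (Mf * δ + M * (η + η)) := by
  obtain ⟨c, c1, c2⟩ := hF
  have hM : 0 ≤ M := (abs_nonneg _).trans (hH hs.choose)
  rw [← sub_le_iff_le_add', ← expect_sub_distrib]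
  refine (le_abs_self _).trans ?_
  rw [← Real.norm_eq_abs, ← Complex.norm_real, ofReal_expect']
  have e : ∀ p, ((H p * Ω (F p) - H p * avg K Ω (F p) : ℝ) : ℂ) =
      ∑ k ∈ Sm ι K0, (c k - if cs Q k ∈ K then c k else 0) * ((H p : ℂ) * ch (cs Q k ⬝ᵥ F p)) +
      H p * ((Ω (F p) - ∑ k ∈ Sm ι K0, c k * ch (cs Q k ⬝ᵥ F p)) - (avg K Ω (F p) -
        ∑ k ∈ Sm ι K0, (if cs Q k ∈ K then c k else 0) * ch (cs Q k ⬝ᵥ F p))) := fun p => by
    simp only [sub_mul, sum_sub_distrib, mul_left_comm _ (H p : ℂ), ← mul_sum]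
    push_cast
    ring
  simp only [e]
  rw [expect_add_distrib, expect_sum_comm]
  refine (norm_add_le _ _).trans (add_le_add ((norm_sum_le _ _).trans (le_trans (sum_le_sum
    fun k hk => ?_) ((sum_mul _ _ _).symm.trans_le (mul_le_mul_of_nonneg_right c1 hδ))))
    (norm_expect_le' hs fun p _ => ?_))
  · rw [← mul_expect, norm_mul]
    split_ifs with hK
    · rw [sub_self, norm_zero, zero_mul]; positivity
    · rw [sub_zero]; exact mul_le_mul_of_nonneg_left (h k hk hK) (norm_nonneg _)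
  · rw [norm_mul, Complex.norm_real]
    exact mul_le_mul (hH p) ((norm_sub_le _ _).trans (add_le_add (c2 _) (avg_fa c2 _)))
      (norm_nonneg _) hM

theorem abs_H {α : Type} {u y : α → ℝ} (hu : U01 u) (hy : U01 y) {t M : ℝ} (h : |t| ≤ M) (a b : α) :
    |u a * y b * t| ≤ M := by
  rw [abs_mul, abs_of_nonneg (mul_nonneg (hu a).1 (hy b).1)]
  exact (mul_le_of_le_one_left (abs_nonneg _) (mul_le_one₀ (hu a).2 (hy b).1 (hy b).2)).trans h

theorem stepS (hV : VIN) {G W K0 T j : ℕ} {δ δ1 lam M Mf η θ κ : ℝ} {Ω : (ι → ZMod Q) → ℝ}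
    {C : Bil Q n ι} {K : Submodule (ZMod Q) (ι → ZMod Q)} {g : V Q n → ℝ} (h0 : 0 < δ) (h1 : δ ≤ 1)
    (g1 : (10 / δ) ^ 10 ≤ G) (hW : 1 ≤ W) (g2 : W ≤ G) (g3 : Fintype.card ι ≤ G)
    (g4 : (Fintype.card ι).factorial * K0 ^ Fintype.card ι ≤ G) (hK0 : 1 ≤ K0) (g5 : lam ≤ G)
    (g6 : n ≤ G) (hT : G ^ 9 ≤ T) (hQ : W * T ≤ Q) (hΩ : LL lam Ω) (hF : FA Ω K0 Mf η)
    (h2 : 0 ≤ δ1) (h3 : δ ≤ δ1 ^ 2 / 2) (h4 : 8 * (n : ℝ) ≤ δ1 ^ 2 * W) (hM : 0 < M)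
    (hg : ∀ x, |g x - θ| ≤ M) (hB : Bas K K0 j) (hC : ∀ x y, C x y - C y x ∈ perp K)
    (h : Rect g θ T W C Ω κ) :
    (∃ C' : Bil Q n ι, (∀ x y, C' x y = C' y x) ∧
      Rect g θ T W C' (avg K Ω) (κ - (Mf * (δ1 * M) + M * (η + η)))) ∨
    ∃ (x0 : V Q n) (P : V Q n →ₗ[ZMod Q] V Q n) (C' : Bil Q n ι)
      (K' : Submodule (ZMod Q) (ι → ZMod Q)), Function.Injective P ∧ Bas K' K0 (j + 1) ∧
      (∀ x y, C' x y - C' y x ∈ perp K') ∧
      Rect (fun z => g (x0 + P z)) θ (T / G ^ 9) W C' Ω (κ - M / (G : ℝ) ^ 2) := by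
  obtain ⟨u, y, α, β, hu, hy, h⟩ := h
  have g0 := (ten_le h0 h1 g1).1
  have t0 : 1 ≤ T := (Nat.one_le_pow _ _ (by omega)).trans hT
  have t1 : 1 ≤ T / G ^ 9 := Nat.div_pos hT (by positivity)
  have t2 : G ^ 7 * (T / G ^ 9) ≤ T := (Nat.mul_le_mul_right _
    (Nat.pow_le_pow_right (by omega) (by norm_num))).trans (Nat.mul_div_le _ _)
  have t4 := (Nat.le_mul_of_pos_left T hW).trans hQ
  have t3 : (2 : ZMod Q) ≠ 0 := two_ne (by
    have := Nat.le_self_pow (by norm_num : 9 ≠ 0) G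
    omega)
  simp only [mul_right_comm _ (Ω _)] at h
  by_cases hk : ∀ k ∈ Sm ι K0, cs Q k ∉ K → ‖𝔼 p ∈ bx Q n T ×ˢ bx Q n (W * T),
      ((u p.1 * y p.2 * (g (p.1 + p.2) - θ) : ℝ) : ℂ) *
        ch (cs Q k ⬝ᵥ (C p.1 p.2 + α p.1 + β p.2))‖ ≤ δ1 * M
  · have k := freq ((bx_ne t0).product (bx_ne (Nat.mul_pos hW t0))) hF
      (fun p => abs_H hu hy (hg _) p.1 p.2) (mul_nonneg h2 hM.le) hk
    rw [expect_product, expect_product] at k
    refine .inl ⟨(2 : ZMod Q)⁻¹ • (C + C.flip), fun x y => by simp [add_comm], u, y, α, β, hu, hy,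
      sub_le_iff_le_add.2 (h.trans (k.trans (le_of_eq ?_)))⟩
    congr 1
    refine expect_congr rfl fun a _ => expect_congr rfl fun b _ => ?_
    rw [mul_right_comm _ (avg K Ω _), ← avg_add Ω (((2 : ZMod Q)⁻¹ • (C + C.flip)) a b + α a + β b)
      (perp_smul (2 : ZMod Q)⁻¹ (hC a b))]
    congr 2
    simp only [LinearMap.smul_apply, LinearMap.add_apply, LinearMap.flip_apply]
    rw [add_right_comm _ (β b) (_ • _), add_right_comm _ (α a) (_ • _), ← smul_add, add_add_sub_cancel,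
      ← two_smul (ZMod Q), inv_smul_smul₀ t3]
  push Not at hk
  obtain ⟨k, k1, k2, hk⟩ := hk
  obtain ⟨K', w, D, d0, d1, d2, d3, d4, d5, d6⟩ := hB.ext hK0 k1 k2 g4
  obtain ⟨u', v', b1, b2, b3⟩ := bias (C.compr₂ (dotL (cs Q k)))
    (u := fun a => u a * ch (cs Q k ⬝ᵥ α a)) (y := fun b => y b * ch (cs Q k ⬝ᵥ β b))
    (g := fun z => ((g z - θ) / M : ℝ))
    (fun a => by rw [norm_mul, norm_ch, mul_one, Complex.norm_of_nonneg (hu a).1]; exact (hu a).2)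
    (fun a => by rw [norm_mul, norm_ch, mul_one, Complex.norm_of_nonneg (hy a).1]; exact (hy a).2)
    (fun z => by
      rw [Complex.norm_real, Real.norm_eq_abs, abs_div, abs_of_pos hM, div_le_one hM]; exact hg z)
    t0 hW hQ h2 h4 (by
      refine le_of_mul_le_mul_right (hk.le.trans (le_of_eq ?_)) hM
      refine Eq.trans ?_ (congrArg _ (Complex.norm_of_nonneg hM.le))
      rw [← norm_mul, expect_product, expect_mul]
      congr 1
      refine expect_congr rfl fun a _ => ?_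
      rw [expect_mul]
      refine expect_congr rfl fun b _ => ?_
      have : (M : ℂ) ≠ 0 := Complex.ofReal_ne_zero.2 hM.ne'
      rw [dotProduct_add, dotProduct_add, ch_add, ch_add]
      push_cast
      rw [show ch (C.compr₂ (dotL (cs Q k)) a b) = ch (cs Q k ⬝ᵥ C a b) from rfl]
      field_simp)
  obtain ⟨P, σ, p1, p2, p3, p4⟩ := arc hV h0 h1 g1 g6 t1 t2 t2 t4 t4 b1 b2 (h3.trans b3) d1 d2
  have p5 : ∀ x y, cs Q k ⬝ᵥ C (P y) (P x) - cs Q k ⬝ᵥ C (P x) (P y) = 2 * D * σ x y := p3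
  have p6 : ∀ x y, σ y x = -σ x y := fun x y =>
    mul_left_cancel₀ (mul_ne_zero t3 d1) (by rw [mul_neg, ← p5, ← p5, neg_sub])
  obtain ⟨a0, b0, m⟩ := move (T' := T / G ^ 9) (fun a b => C a b + α a + β b)
    (fun a b => abs_H hu hy (hg (a + b)) a b) hΩ p2 g0 g6 g6 t0 t1 hW hQ (by
      rw [← mul_assoc, ← pow_add]; exact Nat.mul_div_le _ _)
  have p7 : ∀ x y, C (P x) (P y) + σ x y • cs Q w - (C (P y) (P x) + σ y x • cs Q w) ∈ perp K' :=
    fun x y => d6 _ (by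
      rw [add_sub_add_comm, ← sub_smul]; exact perp_add (hC _ _) (perp_smul _ d4)) (by
      rw [dotProduct_sub, dotProduct_add, dotProduct_add, dotProduct_smul, dotProduct_smul, d5, p6 x y]
      linear_combination -p5 x y)
  refine .inr ⟨a0 + b0, P, C.compl₁₂ P P + tw σ (cs Q w), K', p1, d0, p7, fun a => u (a0 + P a),
    fun b => y (b0 + P b), fun a => C (a0 + P a) b0 + α (a0 + P a),
    fun b => C a0 (P b) + β (b0 + P b), fun _ => hu _, fun _ => hy _, sub_le_iff_le_add.2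
      (h.trans ((m (fun a b => (C.compl₁₂ P P + tw σ (cs Q w)) a b + (C (a0 + P a) b0 + α (a0 + P a)) +
        (C a0 (P b) + β (b0 + P b))) (fun a b => (-σ a b) • cs Q w) (fun a b => ?_)
        fun a ha b hb => small (by omega) g5 g3 d3 ?_).trans (le_of_eq ?_)))⟩
  · simp only [map_add, LinearMap.add_apply, LinearMap.compl₁₂_apply, tw_apply, neg_smul]
    abel
  · rw [nm_neg]
    exact p4 _ _ (near_two g2 (by omega) ha hb).1 (near_two g2 (by omega) ha hb).2.1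
  · simp only [mul_right_comm _ (Ω _), map_add P, add_add_add_comm a0 (P _)]

theorem iterS (hV : VIN) {G W K0 T : ℕ} {δ δ1 lam M Mf η θ κ : ℝ} {Ω : (ι → ZMod Q) → ℝ}
    {C : Bil Q n ι} {g : V Q n → ℝ} (h0 : 0 < δ) (h1 : δ ≤ 1)
    (g1 : (10 / δ) ^ 10 ≤ G) (hW : 1 ≤ W) (g2 : W ≤ G) (g3 : Fintype.card ι ≤ G)
    (g4 : (Fintype.card ι).factorial * K0 ^ Fintype.card ι ≤ G) (hK0 : 1 ≤ K0) (g5 : lam ≤ G)
    (g6 : n ≤ G) (t0 : 1 ≤ T) (hT : (9 + 10 * Fintype.card ι) * Real.log G ≤ Real.log T)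
    (hQ : W * T ≤ Q) (hΩ : LL lam Ω) (hF : FA Ω K0 Mf η)
    (h2 : 0 ≤ δ1) (h3 : δ ≤ δ1 ^ 2 / 2) (h4 : 8 * (n : ℝ) ≤ δ1 ^ 2 * W) (hM : 0 < M)
    (hg : ∀ x, |g x - θ| ≤ M) (h : Rect g θ T W C Ω κ) :
    ∃ (i T' : ℕ) (x0 : V Q n) (P : V Q n →ₗ[ZMod Q] V Q n) (C' : Bil Q n ι)
      (Ω' : (ι → ZMod Q) → ℝ), i ≤ Fintype.card ι ∧ Function.Injective P ∧
      Shr n T n T' 0 0 (i * (10 * Real.log G)) ∧ (∀ x y, C' x y = C' y x) ∧ LL lam Ω' ∧
      Rect (fun z => g (x0 + P z)) θ T' W C' Ω'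
        (κ - i * (M / (G : ℝ) ^ 2) - (Mf * (δ1 * M) + M * (η + η))) := by
  by_contra hc
  have st : ∀ i : ℕ, ∃ (T' : ℕ) (x0 : V Q n) (P : V Q n →ₗ[ZMod Q] V Q n) (C' : Bil Q n ι)
      (K : Submodule (ZMod Q) (ι → ZMod Q)), Function.Injective P ∧
      Shr n T n T' 0 0 (i * (10 * Real.log G)) ∧ Bas K K0 i ∧ (∀ x y, C' x y - C' y x ∈ perp K) ∧
      Rect (fun z => g (x0 + P z)) θ T' W C' Ω (κ - i * (M / (G : ℝ) ^ 2)) := fun i => by
    induction i with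
    | zero => exact ⟨T, 0, .id, C, ⊥, fun _ _ h => h, by simpa using shr_refl t0, bas_bot _,
        fun _ _ => mem_perp.2 (by simp), by simpa using h⟩
    | succ i ih =>
      obtain ⟨T', x0, P, C', K, p1, p2, p3, p4, p5⟩ := ih
      have i2 : (i : ℝ) ≤ Fintype.card ι := Nat.cast_le.2 p3.le
      have l := Real.log_natCast_nonneg G
      have g0 := (ten_le h0 h1 g1).1
      have i7 : G ^ 9 ≤ T' := Nat.cast_le (α := ℝ).1 ((Real.log_le_log_iff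
        (Nat.cast_pos.2 (Nat.pow_pos (by omega))) (Nat.cast_pos.2 p2.2.2.1)).1 (by
          rw [Nat.cast_pow, Real.log_pow, Nat.cast_ofNat]
          linarith [p2.2.2.2.2, mul_le_mul_of_nonneg_right i2 l]))
      obtain ⟨C1, r1, r2⟩ | ⟨x1, P1, C1, K1, r1, r2, r3, r4⟩ := stepS hV h0 h1 g1 hW g2 g3 g4 hK0 g5 g6
        i7 ((Nat.mul_le_mul_left _ p2.2.2.2.1).trans hQ) hΩ hF h2 h3 h4 hM (fun _ => hg _) p3 p4 p5
      · exact (hc ⟨i, T', x0, P, C1, _, p3.le, p1, p2, r1, avg_ll hΩ, r2⟩).elim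
      refine ⟨_, x0 + P x1, P.comp P1, C1, K1, p1.comp r1, (p2.trans (shr_div (by omega) i7) le_rfl
        le_rfl zero_le_one (by positivity)).mono (by simp) (by simp) (by simp [add_mul]), r2, r3, ?_⟩
      simpa only [map_add, add_assoc, LinearMap.comp_apply, Nat.cast_succ, add_mul, one_mul, sub_sub]
        using r4
  obtain ⟨_, _, _, _, _, _, _, p, _⟩ := st (Fintype.card ι + 1)
  exact absurd p.le (by omega)

theorem rect_sm {f : V Q n → ℝ} {θ ε κ lam : ℝ} {T W : ℕ} {C : Bil Q n ι} {Ω Ω1 : (ι → ZMod Q) → ℝ}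
    (e1 : ε ≤ 1) (hf : ∀ x, 0 ≤ f x) (h0 : 0 ≤ θ) (hΩ : LL lam Ω)
    (s3 : ∀ u, (1 - ε / 2) * Ω u ≤ Ω1 u ∧ Ω1 u ≤ (1 + ε / 2) * Ω u) (h : Rect f θ T W C Ω κ) :
    Rect f ((1 - ε) * θ) T W C Ω1 ((1 - ε / 2) * κ) := by
  obtain ⟨u, y, α, β, hu, hy, h⟩ := h
  refine ⟨u, y, α, β, hu, hy, (mul_le_mul_of_nonneg_left h (by linarith)).trans ?_⟩
  simp only [mul_expect]
  refine expect_le_expect fun a _ => expect_le_expect fun b _ => ?_
  rw [mul_assoc (u a * y b), mul_assoc (u a * y b), mul_left_comm]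
  refine mul_le_mul_of_nonneg_left ?_ (mul_nonneg (hu a).1 (hy b).1)
  obtain ⟨k1, k2⟩ := s3 (C a b + α a + β b)
  nlinarith [mul_le_mul_of_nonneg_right k1 (hf (a + b)), mul_le_mul_of_nonneg_right k2
    (mul_nonneg (by linarith : 0 ≤ 1 - ε) h0), mul_nonneg (hΩ.pos (C a b + α a + β b)).le
      (mul_nonneg h0 (sq_nonneg ε))]

theorem fa_max {Ω : (ι → ZMod Q) → ℝ} {K0 : ℕ} {M η : ℝ} (h : FA Ω K0 M η) :
    FA Ω (max K0 1) M η := by
  obtain ⟨c, c1, c2⟩ := h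
  have sb : Sm ι K0 ⊆ Sm ι (max K0 1) := Fintype.piFinset_subset _ _ fun _ =>
    Icc_subset_Icc (by omega) (by omega)
  refine ⟨fun k => if k ∈ Sm ι K0 then c k else 0, ?_, fun u => ?_⟩
  · simpa only [apply_ite norm, norm_zero, sum_ite_mem, inter_eq_right.2 sb] using c1
  · simpa only [ite_mul, zero_mul, sum_ite_mem, inter_eq_right.2 sb] using c2 u

theorem numS {Z A B W ε κ i n : ℝ} (hZ : 20 ≤ Z) (z2 : 20 * Z ≤ A) (z3 : 20 * A ≤ B)
    (hW : Real.exp B ≤ W) (e1 : ε ≤ 1 / 100) (hκ : Real.exp (-Z) ≤ κ) (hi : i ≤ Z) (n0 : 0 ≤ n)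
    (hn : n ≤ Z) : Real.exp (-B) ≤ Real.exp (-(7 * A)) ^ 2 / 2 ∧
      8 * n ≤ Real.exp (-(7 * A)) ^ 2 * W ∧ κ / 4 ≤ (1 - ε / 2) * κ - i * (Real.exp Z / W ^ 2) -
        (Real.exp (6 * A) * (Real.exp (-(7 * A)) * Real.exp Z) +
          Real.exp Z * (Real.exp (-(3 * Z)) + Real.exp (-(3 * Z)))) := by
  have b6 : Z + 1 ≤ Real.exp Z := Real.add_one_le_exp Z
  have d1 : Real.exp (-(7 * A)) ^ 2 = Real.exp (-(14 * A)) := by
    rw [← Real.exp_nat_mul]; congr 1; push_cast; ring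
  rw [d1, le_div_iff₀ two_pos]
  refine ⟨(mul_le_mul_of_nonneg_left (by linarith : 2 ≤ Real.exp Z) (Real.exp_pos _).le).trans ?_,
    le_trans ((mul_le_mul (by linarith : 8 ≤ Real.exp Z) (by linarith : n ≤ Real.exp Z) n0
      (Real.exp_pos _).le).trans ?_) (mul_le_mul_of_nonneg_left hW (Real.exp_pos _).le), ?_⟩
  · rw [← Real.exp_add]
    exact Real.exp_le_exp.2 (by linarith)
  · rw [← Real.exp_add, ← Real.exp_add]
    exact Real.exp_le_exp.2 (by linarith)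
  have e3 := err2 (by linarith) ((Real.exp_le_exp.2 (by linarith)).trans hW) hi
  have e4 : Real.exp (6 * A) * (Real.exp (-(7 * A)) * Real.exp Z) ≤ Real.exp (-Z) * Real.exp (-Z) := by
    simp only [← Real.exp_add]; exact Real.exp_le_exp.2 (by linarith)
  have e5 : Real.exp Z * Real.exp (-(3 * Z)) = Real.exp (-Z) * Real.exp (-Z) := by
    simp only [← Real.exp_add]; congr 1; ring
  have e6 : Real.exp (-Z) ≤ 1 / 20 := by
    rw [Real.exp_neg, one_div]; exact inv_anti₀ (by norm_num) (by linarith)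
  have e7 := Real.exp_pos (-Z)
  linarith [mul_le_mul_of_nonneg_right e1 (e7.le.trans hκ), mul_le_mul_of_nonneg_right e6 e7.le]

theorem sy_of (hV : VIN) (hS : SM) : SY := by
  intro ε e0 e1
  obtain ⟨C, hC⟩ := exists_nat_ge (2 / ε)
  refine ⟨C + 20, fun X Y Z Q _ n T W ι _ _ f θ lam κ C0 Ω ⟨a1, a2, a3, _⟩ hn hc hW hT hQ hf h0 h2
    hl hl' hκ hΩ h => ?_⟩
  have c1 : (0 : ℝ) ≤ C := Nat.cast_nonneg C
  have hZ : C + 20 ≤ Z := le_trans (by simpa using a1) (a2.trans a3)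
  have z0 : 20 ≤ Z := by linarith
  have z1 : Z ^ (2 + 3) ≤ Z ^ (C + 20) := pow_le_pow_right₀ (by linarith) (by omega)
  have z2 : 20 * Z ≤ Z ^ 2 := sq Z ▸ mul_le_mul_of_nonneg_right z0 (by linarith)
  have z3 : 20 * Z ^ 2 ≤ Z ^ (2 + 1) := pow_succ' Z 2 ▸ mul_le_mul_of_nonneg_right z0 (sq_nonneg Z)
  have z4 : Z ^ (2 + 1) ≤ Z ^ (C + 20) := pow_le_pow_right₀ (by linarith) (by omega)
  have z6 : 3 * Z ≤ Real.exp Z := by linarith [Real.quadratic_le_exp_of_nonneg (by linarith : 0 ≤ Z)]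
  obtain ⟨-, b2, b3⟩ := big (k := 2) (G := W) (by linarith : 10 ≤ Z) ((Real.exp_le_exp.2 z1).trans hW)
  have s0 := hS Q ι Z (3 * Z) lam (ε / 2) Ω
  clear z1
  generalize Z ^ (C + 20) = B at *
  generalize Z ^ (2 + 1) = A' at *
  generalize Z ^ 2 = A at *
  have w0 : (1 : ℝ) ≤ W := (Real.one_le_exp (by linarith)).trans hW
  have w1 : 1 ≤ W := by exact_mod_cast w0
  have w2 := Real.log_nonneg w0
  have b5 : Real.exp Z ≤ W := (Real.exp_le_exp.2 (by linarith)).trans hW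
  have b7 : Real.exp Y ≤ Real.exp Z := Real.exp_le_exp.2 a3
  have l0 := mul_le_mul_of_nonneg_right (by linarith : 20 * Z ≤ B) w2
  have l2 : B ≤ Real.log W := (Real.le_log_iff_exp_le (by linarith)).2 hW
  have l3 := mul_le_mul_of_nonneg_right z0 w2
  have l4 := mul_le_mul_of_nonneg_right (hc.trans a3) w2
  have t0 : 1 ≤ T := Nat.pos_of_ne_zero fun e => by
    rw [e, Nat.cast_zero, Real.log_zero] at hT; linarith
  have q1 : W * T ≤ Q := (Nat.le_self_pow two_ne_zero _).trans hQ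
  obtain ⟨Ω1, K0, s1, s2, s3, s4⟩ := s0 (by linarith) (hc.trans a3) hl (hl'.trans b7) (by
      rw [Real.exp_neg, ← inv_div]; exact inv_anti₀ (by positivity) (by linarith)) (by linarith) z6
    ((Real.exp_le_exp.2 (by linarith)).trans (hW.trans (Nat.cast_le.2
      ((Nat.le_mul_of_pos_right W t0).trans q1)))) hΩ
  have nu := fun i hi => numS (i := i) z0 z2 z3 ((Real.exp_le_exp.2 z4).trans hW) e1
    ((Real.exp_le_exp.2 (neg_le_neg a3)).trans hκ) hi (Nat.cast_nonneg n) hn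
  have h3 := mul_le_mul_of_nonneg_right e1 h0
  have h4 := mul_nonneg e0.le h0
  obtain ⟨i, T', x0, P, C', Ω', p0, p1, p2, p3, p4, u, y, α, β, hu, hy, p5⟩ := iterS (G := W)
    (M := Real.exp Z) hV (Real.exp_pos _)
    (Real.exp_le_one_iff.2 (by linarith)) b2 w1 le_rfl (Nat.cast_le (α := ℝ).1 (by linarith))
    (b3 _ _ (hc.trans a3) (by
      rw [Nat.cast_max]
      exact max_le (s1.trans (Real.exp_le_exp.2 (by linarith)))
        (by rw [Nat.cast_one]; exact Real.one_le_exp (by linarith))))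
    (le_max_right _ _) (by linarith) (Nat.cast_le (α := ℝ).1 (by linarith)) t0 (by linarith) q1 s2
    (fa_max s4) (Real.exp_pos _).le (nu Z le_rfl).1 (nu Z le_rfl).2.1 (Real.exp_pos _)
    (fun x => abs_le.2 ⟨by linarith [(hf x).1], by linarith [(hf x).2]⟩)
    (rect_sm (by linarith) (fun x => (hf x).1) h0 hΩ s3 h)
  have i1 : (i : ℝ) ≤ Z := (Nat.cast_le.2 p0).trans (hc.trans a3)
  exact ⟨T', x0, P, C', Ω', p1, p2.mono le_rfl le_rfl
    (by linarith [mul_le_mul_of_nonneg_right i1 w2]), p3, p4, u, y, α, β, hu, hy,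
    (nu i i1).2.2.trans p5⟩

end Vale.Agent.P057Z.Rg
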