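import Vale.Agent.P057Z.Ke.All
import Vale.Agent.P057Z.Km.All
import Vale.Agent.P057Z.St.All
import Vale.Agent.P057Z.Fr.All
import Vale.Agent.P057Z.Dr.All
import Vale.Agent.P057Z.Fn.Fin
import Vale.Agent.P057Z.Gr.Top
import Vale.Agent.P057Z.Sa.Fap
import Vale.Agent.P057Z.Sa.Vtx
import Vale.Agent.P057Z.Sa.Tri
import Vale.Agent.P057Z.Sa.Slice
import Vale.Agent.P057Z.Sa.Low
import Vale.Agent.P057Z.Sa.Low2
import Vale.Agent.P057Z.Sa.Hge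
import Vale.Agent.P057Z.Sa.Main
import Vale.Agent.P057Z.Mn.Head
import Vale.Agent.P057Z.Mn.Tail
import Vale.Agent.P057Z.Mn.Main
import Vale.Agent.P057Z.Rg.Sy
import Vale.Agent.P057Z.Rg.Cell
import Vale.Agent.P057Z.Rg.It

/-! All blocks assembled. -/

namespace Vale.Agent.P057Z.Rg

theorem start : START :=
  have hv := Sa.vtx_of Ke.eq_ Ke.fol_
  have ht := Sa.tri_of Sa.pi
  Sa.start_of (Sa.ker_of Ke.pop) hv ht Sa.pi (Sa.slice_of Ke.kill_ Ke.fol_)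
    (Sa.low_of Sa.low1 (Sa.low2_of Ke.eq_ Sa.fap Sa.pi hv ht) Ke.fol_) Sa.pick (Sa.cnt_of Sa.pi)
    (Sa.hge_of St.hg)

theorem tail : Mn.TAIL :=
  Mn.tail_of (Dr.drop (Fr.fr Km.apb)) (sy_of Ke.vin Ke.sm) cell (rg2_of Ke.vin Ke.kill_)
    (Fn.fin_of Ke.sm Ke.avg_ Ke.eq_ Km.km Ke.kill_ Ke.pop)

theorem result_gr (h : GR) : RESULT :=
  result_of (Mn.main_of (rg2_of Ke.vin Ke.kill_) (Mn.head_of Ke.sm start h) tail)

theorem result_all : RESULT := result_gr (Gr.gr_of Km.km Ke.eq_ Ke.avg_ Ke.pop)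

end Vale.Agent.P057Z.Rg
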