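import Vale.Agent.P057Z.Rg.Base
import Vale.Agent.P057Z.Bas0

/-!
# P057Z, block Rg: passing to a progression on which a biased form is small
-/

set_option linter.unusedSectionVars false

open Finset
open scoped BigOperators

noncomputable section

namespace Vale.Agent.P057Z.Rg

open Vale.Agent.P057Z Vale.Agent.P057Z.Ke

variable {Q : ℕ} [Fact Q.Prime] {n n' : ℕ} {ι : Type} [Fintype ι] [DecidableEq ι]

theorem ten_le {δ : ℝ} {G : ℕ} (h0 : 0 < δ) (h1 : δ ≤ 1) (h : (10 / δ) ^ 10 ≤ G) :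
    10 ≤ G ∧ 4 / δ ^ 2 ≤ G := by
  have k : 10 ≤ 10 / δ := by rw [le_div_iff₀ h0]; linarith
  have k1 : (10 / δ) ^ 2 ≤ G := (pow_le_pow_right₀ (by linarith) (by norm_num)).trans h
  refine ⟨Nat.cast_le (α := ℝ).1 (by push_cast; nlinarith), le_trans ?_ k1⟩
  rw [div_pow]
  exact div_le_div_of_nonneg_right (by norm_num) (by positivity)

theorem arc (hV : VIN) {β : V Q n →ₗ[ZMod Q] V Q n →ₗ[ZMod Q] ZMod Q} {T1 T2 T' G : ℕ} {δ : ℝ}
    {u v : V Q n → ℂ} (h0 : 0 < δ) (h1 : δ ≤ 1) (hG : (10 / δ) ^ 10 ≤ G) (hn : n ≤ G)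
    (hT : 1 ≤ T') (k1 : G ^ 7 * T' ≤ T1) (k2 : G ^ 7 * T' ≤ T2) (q1 : T1 ≤ Q) (q2 : T2 ≤ Q)
    (hu : ∀ x, ‖u x‖ ≤ 1) (hv : ∀ x, ‖v x‖ ≤ 1)
    (h : δ ≤ ‖𝔼 x ∈ bx Q n T1, 𝔼 y ∈ bx Q n T2, u x * v y * ch (β x y)‖) {D0 : ℤ}
    (hD : (D0 : ZMod Q) ≠ 0) (hD' : |D0| ≤ G) :
    ∃ (P : V Q n →ₗ[ZMod Q] V Q n) (σ : V Q n →ₗ[ZMod Q] V Q n →ₗ[ZMod Q] ZMod Q),
      Function.Injective P ∧ SmallMap P (G ^ 3) ∧ (∀ x y, β (P x) (P y) = 2 * D0 * σ x y) ∧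
      ∀ x y, Near x (2 * G * T') → Near y (2 * G * T') → nm (σ x y) ≤ 8 / (G : ℝ) ^ 7 := by
  obtain ⟨g1, g2⟩ := ten_le h0 h1 hG
  have g3 : G < G ^ 7 * T' := ((pow_one G).symm.trans_lt
    (Nat.pow_lt_pow_right (by omega) (by norm_num))).trans_le (Nat.le_mul_of_pos_right _ hT)
  obtain ⟨D, d1, d2⟩ := hV Q n T1 T2 δ β u v h0 h1 (hG.trans (Nat.cast_le.2 (by omega)))
    (hG.trans (Nat.cast_le.2 (by omega))) q1 q2 hu hv h
  have d3 : ∀ m, D m ≤ G := fun m => Nat.cast_le (α := ℝ).1 ((d1 m).2.trans g2)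
  have e : ∀ x, dg Q (fun m => 2 * D0 * D m) x = (2 * D0 : ZMod Q) • dg Q (fun m => D m) x :=
    fun x => funext fun m => by simp [dg, mul_assoc]
  have d4 : ∀ m, |2 * D0 * D m| ≤ 2 * G * G := fun m => by
    rw [abs_mul, abs_mul, abs_two, Nat.abs_cast]
    exact mul_le_mul (by linarith) (Nat.cast_le.2 (d3 m)) (Nat.cast_nonneg _) (by positivity)
  refine ⟨dg Q fun m => 2 * D0 * D m, (2 * D0 : ZMod Q) • β.compl₁₂ (dg Q fun m => D m)
    (dg Q fun m => D m), dg_inj fun m => ?_, dg_small fun m => (d4 m).trans ?_,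
    fun x y => by rw [e, e]; simp, fun x y hx hy => ?_⟩
  · push_cast
    refine mul_ne_zero (mul_ne_zero (two_ne (by omega)) hD) ?_
    have := d1 m
    have := d3 m
    exact_mod_cast int_ne (Q := Q) (D m) (by omega) (by rw [Nat.abs_cast]; omega)
  · have : (10 : ℤ) ≤ G := by exact_mod_cast g1
    push_cast
    nlinarith [mul_nonneg (mul_self_nonneg (G : ℤ)) (by linarith : (0 : ℤ) ≤ G - 2)]
  · have hG0 : (0 : ℝ) < G := by positivity
    have hT0 : (0 : ℝ) < T' := by positivity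
    refine (nm_bil (τ := 2 * G * G * (G / ((G ^ 7 * T') * (G ^ 7 * T')))) (fun i m => ?_) hx hy).trans ?_
    · have e2 : ((2 * D0 : ZMod Q) • β.compl₁₂ (dg Q fun m => D m) (dg Q fun m => D m))
          (Pi.single i 1) (Pi.single m 1) = ((2 * D0 * D i : ℤ) : ZMod Q) *
            ((D m : ZMod Q) * β (Pi.single i 1) (Pi.single m 1)) := by
        simp [dg_single]; ring
      rw [e2]
      refine (nm_int_mul_le _ _).trans (mul_le_mul (by exact_mod_cast d4 i) ((d2 i m).trans ?_)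
        (nm_nonneg _) (by positivity))
      exact div_le_div₀ hG0.le hG (by positivity)
        (mul_le_mul (by exact_mod_cast k1) (by exact_mod_cast k2) (by positivity) (by positivity))
    · have : (n : ℝ) ≤ G := Nat.cast_le.2 hn
      refine le_trans (b := (G : ℝ) * (((2 * G * T' : ℕ) : ℝ) * (G * (((2 * G * T' : ℕ) : ℝ) *
        (2 * G * G * (G / ((G ^ 7 * T') * (G ^ 7 * T')))))))) (by gcongr) (le_of_eq ?_)
      push_cast
      field_simp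
      ring

theorem small {G : ℕ} {lam : ℝ} {w : ι → ℤ} {s : ZMod Q} (hG : 1 ≤ G) (h1 : lam ≤ G)
    (h2 : Fintype.card ι ≤ G) (h3 : ∀ i, |(w i : ℝ)| ≤ G) (h4 : nm s ≤ 8 / (G : ℝ) ^ 7) :
    lam * l1 (s • cs Q w) ≤ 8 / (G : ℝ) ^ 4 := by
  have : (Fintype.card ι : ℝ) ≤ G := Nat.cast_le.2 h2
  refine (mul_le_mul h1 ((l1_smul h3 s).trans (c := G * (G * (8 / (G : ℝ) ^ 7)))
    (by gcongr; exact mul_nonneg (Nat.cast_nonneg _) (nm_nonneg _)))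
    (l1_nonneg _) (Nat.cast_nonneg _)).trans (le_of_eq ?_)
  field_simp

/-- substitution together with a small change of the argument of the weight -/
theorem move {T T' W T0 G : ℕ} {H : V Q n → V Q n → ℝ} {M lam : ℝ} {Ψ : (ι → ZMod Q) → ℝ}
    (F : V Q n → V Q n → ι → ZMod Q) {P : V Q n' →ₗ[ZMod Q] V Q n} (h : ∀ a b, |H a b| ≤ M)
    (hΨ : LL lam Ψ) (hP : SmallMap P T0) (hG : 10 ≤ G) (hn : n ≤ G) (hn' : n' ≤ G) (h1 : 1 ≤ T)
    (h1' : 1 ≤ T') (hW : 1 ≤ W) (h2 : W * T ≤ Q) (h3 : G ^ 6 * (T0 * T') ≤ T) :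
    ∃ a0 b0, ∀ F' E : V Q n' → V Q n' → ι → ZMod Q,
      (∀ a b, F (a0 + P a) (b0 + P b) = F' a b + E a b) →
      (∀ a ∈ bx Q n' T', ∀ b ∈ bx Q n' (W * T'), lam * l1 (E a b) ≤ 8 / (G : ℝ) ^ 4) →
      𝔼 a ∈ bx Q n T, 𝔼 b ∈ bx Q n (W * T), H a b * Ψ (F a b) ≤
        (𝔼 a ∈ bx Q n' T', 𝔼 b ∈ bx Q n' (W * T'), H (a0 + P a) (b0 + P b) * Ψ (F' a b)) +
          M / (G : ℝ) ^ 2 := by
  have hM : 0 ≤ M := (abs_nonneg _).trans (h 0 0)
  obtain ⟨a0, b0, k⟩ := sub2 (H := fun a b => H a b * Ψ (F a b)) (M := M) (fun a b => by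
    rw [abs_mul, abs_of_pos (hΨ.pos _)]
    exact (mul_le_of_le_one_right (abs_nonneg _) (hΨ.le_one _)).trans (h a b)) hP h1 h1' hW h2
  refine ⟨a0, b0, fun F' E e hE => k.trans ?_⟩
  have g : (10 : ℝ) ≤ G := by exact_mod_cast hG
  have g1 : (100 : ℝ) ≤ G ^ 2 := by nlinarith
  have g2 : 8 / (G : ℝ) ^ 4 ≤ 1 := by rw [div_le_one (by positivity)]; nlinarith
  have k1 : 𝔼 a ∈ bx Q n' T', 𝔼 b ∈ bx Q n' (W * T'), H (a0 + P a) (b0 + P b) *
      Ψ (F (a0 + P a) (b0 + P b)) - 𝔼 a ∈ bx Q n' T', 𝔼 b ∈ bx Q n' (W * T'),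
        H (a0 + P a) (b0 + P b) * Ψ (F' a b) ≤ M * (2 * (8 / (G : ℝ) ^ 4)) := by
    rw [← expect_sub_distrib]
    refine (le_abs_self _).trans (abs_av (by positivity) fun a ha => ?_)
    rw [← expect_sub_distrib]
    refine abs_av (by positivity) fun b hb => ?_
    rw [← mul_sub, abs_mul, e]
    exact mul_le_mul (h _ _) (ll_pert hΨ (hE a ha b hb) (by positivity) g2 _) (abs_nonneg _) hM
  have k2 : 4 * n * (n' * T0 * T') / (T : ℝ) ≤ 4 / (G : ℝ) ^ 4 := by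
    have e1 : (n : ℝ) ≤ G := Nat.cast_le.2 hn
    have e2 : (n' : ℝ) ≤ G := Nat.cast_le.2 hn'
    have e3 : (G : ℝ) ^ 6 * (T0 * T') ≤ T := by exact_mod_cast h3
    rw [div_le_div_iff₀ (by positivity) (by positivity)]
    exact le_trans (b := 4 * (G : ℝ) * (G * T0 * T') * (G : ℝ) ^ 4) (by gcongr) (by linarith)
  have k3 : 20 / (G : ℝ) ^ 4 ≤ 1 / (G : ℝ) ^ 2 := by
    rw [div_le_div_iff₀ (by positivity) (by positivity)]; nlinarith
  have k4 := mul_le_mul_of_nonneg_right k2 hM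
  have k5 := mul_le_mul_of_nonneg_right k3 hM
  have k6 : M * (2 * (8 / (G : ℝ) ^ 4)) + 4 / (G : ℝ) ^ 4 * M = 20 / (G : ℝ) ^ 4 * M := by ring
  have k7 : 1 / (G : ℝ) ^ 2 * M = M / (G : ℝ) ^ 2 := by ring
  linarith

/-- a scalar form times a vector -/
def tw (σ : V Q n →ₗ[ZMod Q] V Q n →ₗ[ZMod Q] ZMod Q) (w : ι → ZMod Q) : Bil Q n ι :=
  σ.compr₂ (LinearMap.toSpanSingleton (ZMod Q) _ w)

theorem tw_apply (σ : V Q n →ₗ[ZMod Q] V Q n →ₗ[ZMod Q] ZMod Q) (w : ι → ZMod Q) (x y : V Q n) :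
    tw σ w x y = σ x y • w := rfl

theorem near_two {T W G : ℕ} (hW : W ≤ G) (hG : 1 ≤ G) {a b : V Q n} (ha : a ∈ bx Q n T)
    (hb : b ∈ bx Q n (W * T)) : Near a (2 * G * T) ∧ Near b (2 * G * T) ∧ Near (a + b) (2 * G * T) := by
  have h1 := Nat.mul_le_mul_right T hW
  have h2 := Nat.mul_le_mul_right T hG
  exact ⟨near_mono (near_bx ha) (by nlinarith), near_mono (near_bx hb) (by nlinarith),
    near_mono (near_add (near_bx ha) (near_bx hb)) (by nlinarith)⟩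

theorem shr_div {T G : ℕ} (hG : 2 ≤ G) (h : G ^ 9 ≤ T) :
    Shr n T n (T / G ^ 9) 0 0 (10 * Real.log G) := by
  have h1 := log_div (Nat.one_le_pow 9 G (by omega)) h
  have h2 : Real.log 2 ≤ Real.log G := Real.log_le_log two_pos (by exact_mod_cast hG)
  rw [Nat.cast_pow, Real.log_pow] at h1
  exact Shr.of_le (Nat.div_pos h (by positivity)) (Nat.div_le_self _ _) (by push_cast at h1; linarith)

end Vale.Agent.P057Z.Rg
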