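import Vale.Agent.P057Z.Rg.Arc

/-!
# P057Z, block Rg: regularisation of a quadratic weight on a rectangle
-/

set_option linter.unusedSectionVars false

open Finset
open scoped BigOperators

noncomputable section

namespace Vale.Agent.P057Z.Rg

open Vale.Agent.P057Z Vale.Agent.P057Z.Ke

variable {Q : ℕ} [Fact Q.Prime] {n n' : ℕ} {ι : Type} [Fintype ι] [DecidableEq ι]

theorem dot_lin (θ : V Q n →ₗ[ZMod Q] ZMod Q) (y : V Q n) :
    (fun i => θ (Pi.single i 1)) ⬝ᵥ y = θ y := by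
  conv_rhs => rw [pi_eq_sum_univ' y, map_sum]
  simp [dotProduct, mul_comm]

/-- the average on a rectangle of `H` against a quadratic weight of the sum -/
def avq (T W : ℕ) (H : V Q n → V Q n → ℝ) (Ψ : (ι → ZMod Q) → ℝ) (q : Quad Q n ι) : ℝ :=
  𝔼 a ∈ bx Q n T, 𝔼 b ∈ bx Q n (W * T), H a b * Ψ (q.ev (a + b))

theorem stepQ (hV : VIN) {G W T T1 T2 : ℕ} {δ lam M : ℝ} {Ψ : (ι → ZMod Q) → ℝ} {q : Quad Q n ι}
    {K K' : Submodule (ZMod Q) (ι → ZMod Q)} {H : V Q n → V Q n → ℝ} {k w : ι → ℤ} {D : ℤ}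
    {u v : V Q n → ℂ} (h0 : 0 < δ) (h1 : δ ≤ 1) (g1 : (10 / δ) ^ 10 ≤ G) (hW : 1 ≤ W) (g2 : W ≤ G)
    (g3 : Fintype.card ι ≤ G) (g5 : lam ≤ G) (g6 : n ≤ G) (hT : G ^ 9 ≤ T) (hQ : W * T ≤ Q)
    (hΨ : LL lam Ψ) (hH : ∀ a b, |H a b| ≤ M) (ht : Triv q K) (d1 : (D : ZMod Q) ≠ 0)
    (d2 : |D| ≤ G) (d3 : ∀ i, |(w i : ℝ)| ≤ G) (d4 : cs Q w ∈ perp K) (d5 : cs Q k ⬝ᵥ cs Q w = D)
    (d6 : ∀ u ∈ perp K, cs Q k ⬝ᵥ u = 0 → u ∈ perp K') (k1 : T / G ≤ T1) (k2 : T / G ≤ T2)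
    (q1 : T1 ≤ Q) (q2 : T2 ≤ Q) (hu : ∀ x, ‖u x‖ ≤ 1) (hv : ∀ x, ‖v x‖ ≤ 1)
    (h : δ ≤ ‖𝔼 x ∈ bx Q n T1, 𝔼 y ∈ bx Q n T2, u x * v y * ch (cs Q k ⬝ᵥ q.B x y)‖) :
    ∃ (a0 b0 : V Q n) (P : V Q n →ₗ[ZMod Q] V Q n) (q' : Quad Q n ι), Function.Injective P ∧
      (∀ y, q'.l y ∈ perp K) ∧ (∀ x y, q'.B x y ∈ perp K ∧ q'.B x y ∈ perp K') ∧
      avq T W H Ψ q ≤ avq (T / G ^ 9) W (fun a b => H (a0 + P a) (b0 + P b)) Ψ q' + M / (G : ℝ) ^ 2 := by
  have g := (ten_le h0 h1 g1).1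
  have t1 : 1 ≤ T / G ^ 9 := Nat.div_pos hT (by positivity)
  have t2 : G ^ 7 * (T / G ^ 9) ≤ T / G := by
    rw [pow_succ' G 8, ← Nat.div_div_eq_div_mul]
    exact (Nat.mul_le_mul_right _ (Nat.pow_le_pow_right (by omega) (by norm_num))).trans
      (Nat.mul_div_le _ _)
  have t3 : 2 < Q := by
    have := Nat.le_mul_of_pos_left T hW
    have := Nat.le_self_pow (by norm_num : 9 ≠ 0) G
    omega
  obtain ⟨P, σ, p1, p2, p3, p4⟩ := arc hV (β := q.B.compr₂ (dotL (cs Q k))) h0 h1 g1 g6 t1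
    (t2.trans k1) (t2.trans k2) q1 q2 hu hv h d1 d2
  have p5 : ∀ x y, cs Q k ⬝ᵥ q.B (P x) (P y) = 2 * D * σ x y := p3
  have p6 : ∀ x y, σ x y = σ y x := fun x y =>
    mul_left_cancel₀ (mul_ne_zero (two_ne t3) d1) (by rw [← p5, ← p5, q.sym])
  obtain ⟨a0, b0, m⟩ := move (T' := T / G ^ 9) (fun a b => q.ev (a + b)) hH hΨ p2 g g6 g6
    ((Nat.one_le_pow _ _ (by omega)).trans hT) t1 hW hQ (by
      rw [← mul_assoc, ← pow_add]; exact Nat.mul_div_le _ _)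
  have p7 : ∀ x y, q.B (P x) (P y) - (2 * σ x y) • cs Q w ∈ perp K := fun x y =>
    perp_sub (ht.2 _ _) (perp_smul _ d4)
  have p8 := fun x y => d6 _ (p7 x y) (by
    rw [dotProduct_sub, dotProduct_smul, p5, d5, smul_eq_mul]; ring)
  refine ⟨a0, b0, P, ⟨q.ev (a0 + b0), (q.comp (a0 + b0) P).l,
    (q.comp (a0 + b0) P).B - tw ((2 : ZMod Q) • σ) (cs Q w), fun x y => ?_⟩, p1,
    (ht.comp _ P).1, fun x y => ⟨p7 x y, p8 x y⟩,
    m _ (fun a b => σ (a + b) (a + b) • cs Q w) (fun a b => ?_) fun a ha b hb =>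
      small (by omega) g5 g3 d3 (p4 _ _ (near_two g2 (by omega) ha hb).2.2
        (near_two g2 (by omega) ha hb).2.2)⟩
  · simp [tw_apply, q.sym (P x), p6 x]
  · rw [add_add_add_comm, ← map_add, ← q.ev_comp t3]
    simp only [Quad.ev, LinearMap.sub_apply, tw_apply, LinearMap.smul_apply, smul_sub, smul_smul,
      smul_eq_mul, inv_mul_cancel_left₀ (two_ne t3)]
    rw [add_assoc, add_assoc, sub_add_cancel, add_assoc]
    rfl

theorem stepL (hK : KILL) {G W T J : ℕ} {lam M : ℝ} {Ψ : (ι → ZMod Q) → ℝ} {q : Quad Q n ι}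
    {K K' : Submodule (ZMod Q) (ι → ZMod Q)} {H : V Q n → V Q n → ℝ} {k w : ι → ℤ} {D : ℤ}
    (g : 10 ≤ G) (hW : 1 ≤ W) (g2 : W ≤ G) (g3 : Fintype.card ι ≤ G) (g5 : lam ≤ G) (g6 : n ≤ G)
    (hJ : 2 ≤ J) (hn : 2 * J ≤ n) (hT : G ^ 18 ≤ T) (hQ : W * T < Q) (hΨ : LL lam Ψ)
    (hH : ∀ a b, |H a b| ≤ M) (hl : ∀ y, q.l y ∈ perp K) (hB : ∀ x y, q.B x y ∈ perp K')
    (d1 : (D : ZMod Q) ≠ 0) (d3 : ∀ i, |(w i : ℝ)| ≤ G) (d4 : cs Q w ∈ perp K)
    (d5 : cs Q k ⬝ᵥ cs Q w = D) (d6 : ∀ u ∈ perp K, cs Q k ⬝ᵥ u = 0 → u ∈ perp K') :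
    ∃ (n' T' : ℕ) (a0 b0 : V Q n) (P : V Q n' →ₗ[ZMod Q] V Q n) (q' : Quad Q n' ι),
      Function.Injective P ∧ Shr n T n' T' (2 * J) (1 / J) (10 * Real.log G) ∧ Triv q' K' ∧
      avq T W H Ψ q ≤ avq T' W (fun a b => H (a0 + P a) (b0 + P b)) Ψ q' + M / (G : ℝ) ^ 2 := by
  have t0 := Nat.le_mul_of_pos_left T hW
  have t1 := Nat.le_self_pow (by norm_num : 18 ≠ 0) G
  set θ : V Q n →ₗ[ZMod Q] ZMod Q := (D : ZMod Q)⁻¹ • (dotL (cs Q k)).comp q.l with hθ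
  obtain ⟨T0, P, p1, p2, p3, p4, p5⟩ := hK Q n J 1 T 1 {fun i => θ (Pi.single i 1)} (by simp)
    (by omega) (by omega) le_rfl (by omega) (by omega)
  have hG : (0 : ℝ) < G := by positivity
  have hT0 : (0 : ℝ) < T0 := by positivity
  have l0 := Real.log_natCast_nonneg T
  have l1 : 18 * Real.log G ≤ Real.log T := by
    have := Real.log_le_log (by positivity) (Nat.cast_le (α := ℝ).2 hT)
    rwa [Nat.cast_pow, Real.log_pow] at this
  have l2 : Real.log T / J ≤ Real.log T / 2 :=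
    div_le_div_of_nonneg_left l0 two_pos (by exact_mod_cast hJ)
  have l3 : Real.log (G ^ 9 * T0 : ℕ) = 9 * Real.log G + Real.log T0 := by
    push_cast; rw [Real.log_mul (by positivity) hT0.ne', Real.log_pow]; norm_num
  have t2 : G ^ 9 * T0 ≤ T := Nat.cast_le (α := ℝ).1 ((Real.log_le_log_iff (by positivity)
    (Nat.cast_pos.2 (by omega))).1 (by linarith))
  have t3 : 1 ≤ G ^ 9 * T0 := Nat.mul_pos (by positivity) p1
  have t4 := Nat.mul_div_le T (G ^ 9 * T0)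
  have l4 := log_div t3 t2
  have l5 : Real.log 2 ≤ Real.log G := Real.log_le_log two_pos (by exact_mod_cast (by omega : 2 ≤ G))
  set T' := T / (G ^ 9 * T0)
  have t5 : 1 ≤ T' := Nat.div_pos t2 t3
  obtain ⟨a0, b0, m⟩ := move (T' := T') (fun a b => q.ev (a + b)) hH hΨ p4 g g6 (by omega)
    (by omega) t5 hW hQ.le (le_trans (by
      rw [mul_assoc]
      exact Nat.mul_le_mul_right _ (Nat.pow_le_pow_right (by omega) (by norm_num))) t4)
  have p6 : ∀ y, q.l y - θ y • cs Q w ∈ perp K' := fun y => d6 _ (perp_sub (hl y) (perp_smul _ d4)) (by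
    rw [dotProduct_sub, dotProduct_smul, d5, smul_eq_mul, mul_comm]
    exact sub_eq_zero.2 (mul_inv_cancel_left₀ d1 _).symm)
  refine ⟨_, T', a0, b0, P, ⟨q.ev (a0 + b0), (q.comp (a0 + b0) P).l -
    (LinearMap.toSpanSingleton (ZMod Q) _ (cs Q w)).comp (θ.comp P), (q.comp (a0 + b0) P).B,
    (q.comp (a0 + b0) P).sym⟩, p3, ⟨?_, Nat.sub_le _ _, t5, Nat.div_le_self _ _, ?_⟩,
    ⟨fun y => ?_, fun x y => hB _ _⟩, m _ (fun a b => θ (P (a + b)) • cs Q w) (fun a b => ?_)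
      fun a ha b hb => small (by omega) g5 g3 d3 ?_⟩
  · rw [Nat.cast_sub (by omega)]; push_cast; linarith
  · rw [sub_mul, one_div_mul_eq_div]; linarith
  · have := perp_add (p6 (P y)) (hB (a0 + b0) (P y))
    rwa [sub_add_eq_add_sub] at this
  · rw [add_add_add_comm, ← map_add, ← q.ev_comp (by omega)]
    simp only [Quad.ev, LinearMap.sub_apply, LinearMap.comp_apply,
      LinearMap.toSpanSingleton_apply]
    rw [add_right_comm _ _ (θ _ • _), add_assoc _ _ (θ _ • _), sub_add_cancel]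
    rfl
  · refine (nm_lin (θ := θ.comp P) (fun m => (congrArg nm (dot_lin θ _).symm).trans_le
      (p5 _ (mem_singleton_self _) m)) (near_two g2 (by omega) ha hb).2.2).trans ?_
    have e1 : ((n - 2 * J * 1 : ℕ) : ℝ) ≤ G := Nat.cast_le.2 (by omega)
    have e2 : (G : ℝ) ^ 9 * T' ≤ T := by
      exact_mod_cast (Nat.mul_le_mul_right _ (Nat.le_mul_of_pos_right _ p1)).trans t4
    refine le_trans (b := (G : ℝ) * (((2 * G * T' : ℕ) : ℝ) * (1 / (G ^ 9 * T')))) ?_ ?_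
    · rw [Nat.cast_one, one_mul]; gcongr
    · push_cast; field_simp; norm_num

theorem step2 (hV : VIN) (hK : KILL) {G W K0 J T j : ℕ} {δ lam M : ℝ} {Ψ : (ι → ZMod Q) → ℝ}
    {q : Quad Q n ι} {K : Submodule (ZMod Q) (ι → ZMod Q)} {H : V Q n → V Q n → ℝ} (h0 : 0 < δ)
    (h1 : δ ≤ 1) (g1 : (10 / δ) ^ 10 ≤ G) (hW : 1 ≤ W) (g2 : W ^ 20 ≤ G) (g3 : Fintype.card ι ≤ G)
    (g4 : (Fintype.card ι).factorial * K0 ^ Fintype.card ι ≤ G) (hK0 : 1 ≤ K0) (g5 : lam ≤ G)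
    (g6 : n ≤ G) (hJ : 2 ≤ J) (hn : 2 * J ≤ n) (hT : G ^ 27 ≤ T) (hQ : W * T ≤ Q) (hΨ : LL lam Ψ)
    (hH : ∀ a b, |H a b| ≤ M) (hB : Bas K K0 j) (ht : Triv q K)
    (hr : ¬ Reg q.B K K0 δ (T / W ^ 20) (W * T)) :
    ∃ (n' T' : ℕ) (a0 b0 : V Q n) (P : V Q n' →ₗ[ZMod Q] V Q n) (q' : Quad Q n' ι)
      (K' : Submodule (ZMod Q) (ι → ZMod Q)), Function.Injective P ∧
      Shr n T n' T' (2 * J) (1 / J) (20 * Real.log G) ∧ Bas K' K0 (j + 1) ∧ Triv q' K' ∧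
      avq T W H Ψ q ≤ avq T' W (fun a b => H (a0 + P a) (b0 + P b)) Ψ q' + 2 * (M / (G : ℝ) ^ 2) := by
  unfold Reg at hr
  push Not at hr
  obtain ⟨k, k1, k2, T1, T2, k3, k4, k5, k6, u, v, hu, hv, h⟩ := hr
  obtain ⟨K', w, D, d0, d1, d2, d3, d4, d5, d6⟩ := hB.ext hK0 k1 k2 g4
  have g := (ten_le h0 h1 g1).1
  have g7 : W ≤ G := (Nat.le_self_pow (by norm_num) W).trans g2
  have g8 := Nat.div_le_div_left (a := T) g2 (by positivity)
  have g9 : G ^ 9 ≤ T := (Nat.pow_le_pow_right (by omega) (by norm_num)).trans hT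
  obtain ⟨a0, b0, P, q1, p1, p2, p3, p4⟩ := stepQ hV h0 h1 g1 hW g7 g3 g5 g6 g9 hQ hΨ hH ht d1 d2 d3
    d4 d5 d6 (g8.trans k3) (g8.trans k5) (k4.trans hQ) (k6.trans hQ) hu hv h.le
  obtain ⟨n', T', a1, b1, P1, q2, r1, r2, r3, r4⟩ := stepL (T := T / G ^ 9) hK g hW g7 g3 g5 g6 hJ hn
    ((Nat.le_div_iff_mul_le (by positivity)).2 (by rwa [← pow_add]))
    ((Nat.mul_lt_mul_of_pos_left (Nat.div_lt_self ((Nat.pow_pos (by omega)).trans_le g9)
      (Nat.one_lt_pow (by norm_num) (by omega))) hW).trans_le hQ) hΨ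
    (fun a b => hH (a0 + P a) (b0 + P b)) p2 (fun x y => (p3 x y).2) d1 d3 d4 d5 d6
  have l := Real.log_natCast_nonneg G
  have hJ' : (2 : ℝ) ≤ J := by exact_mod_cast hJ
  refine ⟨n', T', a0 + P a1, b0 + P b1, P.comp P1, q2, K', p1.comp r1,
    ((shr_div (by omega) g9).trans r2 le_rfl (by positivity) ((div_le_one (by linarith)).2
      (by linarith)) (by linarith)).mono (by simp) (by simp) (by linarith), d0, r3, ?_⟩
  simp only [map_add, ← add_assoc] at r4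
  exact p4.trans ((add_le_add_left r4 _).trans (le_of_eq (by rw [add_assoc, two_mul]; rfl)))

theorem big {Z : ℝ} (hZ : 10 ≤ Z) {k : ℕ} {G : ℕ} (hG : Real.exp (Z ^ (k + 3)) ≤ G) :
    Real.exp (3 * Z ^ (k + 2)) ≤ G ∧ (10 / Real.exp (-Z ^ (k + 1))) ^ 10 ≤ G ∧
      ∀ c K : ℕ, (c : ℝ) ≤ Z → (K : ℝ) ≤ Real.exp (Z ^ (k + 1)) → c.factorial * K ^ c ≤ G := by
  have h1 : Z ≤ Z ^ (k + 1) := le_self_pow₀ (by linarith) (by omega)
  have h2 : Z ^ (k + 2) = Z * Z ^ (k + 1) := pow_succ' _ _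
  have h3 : Z ^ (k + 3) = Z * Z ^ (k + 2) := pow_succ' _ _
  have h4 : Real.exp (3 * Z ^ (k + 2)) ≤ G := (Real.exp_le_exp.2 (h3 ▸ mul_le_mul_of_nonneg_right
    (by linarith) (by positivity))).trans hG
  refine ⟨h4, le_trans ?_ h4, fun c K hc hK => Nat.cast_le (α := ℝ).1 (le_trans ?_ h4)⟩
  · rw [Real.exp_neg, div_inv_eq_mul]
    refine (pow_le_pow_left₀ (by positivity) (mul_le_mul_of_nonneg_right
      (by linarith [Real.add_one_le_exp (Z ^ (k + 1))] : 10 ≤ Real.exp (Z ^ (k + 1)))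
      (by positivity)) 10).trans ?_
    rw [← Real.exp_add, ← Real.exp_nat_mul]
    exact Real.exp_le_exp.2 (by push_cast; nlinarith)
  · have h5 : (c : ℝ) ≤ Real.exp (Z ^ (k + 1)) := by linarith [Real.add_one_le_exp (Z ^ (k + 1))]
    refine (Nat.cast_le.2 (Nat.mul_le_mul_right _ (Nat.factorial_le_pow c))).trans ?_
    rw [← mul_pow, Nat.cast_pow, Nat.cast_mul]
    refine (pow_le_pow_left₀ (by positivity) (mul_le_mul h5 hK (by positivity) (by positivity))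
      c).trans ?_
    rw [← Real.exp_add, ← Real.exp_nat_mul]
    exact Real.exp_le_exp.2 (by nlinarith)

theorem iter2 (hV : VIN) (hK : KILL) {G W K0 J T : ℕ} {δ lam M : ℝ} {Ψ : (ι → ZMod Q) → ℝ}
    (q : Quad Q n ι) {H : V Q n → V Q n → ℝ} (h0 : 0 < δ) (h1 : δ ≤ 1) (g1 : (10 / δ) ^ 10 ≤ G)
    (hW : 1 ≤ W) (g2 : W ^ 20 ≤ G) (g3 : Fintype.card ι ≤ G)
    (g4 : (Fintype.card ι).factorial * K0 ^ Fintype.card ι ≤ G) (hK0 : 1 ≤ K0) (g5 : lam ≤ G)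
    (g6 : n ≤ G) (hJ : 2 * (Fintype.card ι + 1) ≤ J) (hn : (Fintype.card ι + 1) * (2 * J) ≤ n)
    (t0 : 1 ≤ T) (hT : (54 + 40 * Fintype.card ι) * Real.log G ≤ Real.log T) (hQ : W * T ≤ Q)
    (hΨ : LL lam Ψ) (hH : ∀ a b, |H a b| ≤ M) :
    ∃ (i n' T' : ℕ) (a0 b0 : V Q n) (P : V Q n' →ₗ[ZMod Q] V Q n) (q' : Quad Q n' ι)
      (K : Submodule (ZMod Q) (ι → ZMod Q)), i ≤ Fintype.card ι ∧ Function.Injective P ∧
      Shr n T n' T' (i * (2 * J)) (i * (1 / J)) (i * (20 * Real.log G)) ∧ Triv q' K ∧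
      avq T W H Ψ q ≤ avq T' W (fun a b => H (a0 + P a) (b0 + P b)) Ψ q' +
        i * (2 * (M / (G : ℝ) ^ 2)) ∧ Reg q'.B K K0 δ (T' / W ^ 20) (W * T') := by
  have st : ∀ j : ℕ, ∃ (i n' T' : ℕ) (a0 b0 : V Q n) (P : V Q n' →ₗ[ZMod Q] V Q n)
      (q' : Quad Q n' ι) (K : Submodule (ZMod Q) (ι → ZMod Q)), Function.Injective P ∧
      Shr n T n' T' (i * (2 * J)) (i * (1 / J)) (i * (20 * Real.log G)) ∧ Bas K K0 i ∧ Triv q' K ∧
      avq T W H Ψ q ≤ avq T' W (fun a b => H (a0 + P a) (b0 + P b)) Ψ q' +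
        i * (2 * (M / (G : ℝ) ^ 2)) ∧ (i = j ∨ Reg q'.B K K0 δ (T' / W ^ 20) (W * T')) := fun j => by
    induction j with
    | zero => exact ⟨0, n, T, 0, 0, .id, q, ⊥, fun _ _ h => h, by simpa using shr_refl t0,
        bas_bot _, ⟨fun _ => mem_perp.2 (by simp), fun _ _ => mem_perp.2 (by simp)⟩, by simp, .inl rfl⟩
    | succ j ih =>
      obtain ⟨i, n', T', a0, b0, P, q', K, p1, p2, p3, p4, p5, p6⟩ := ih
      by_cases hr : Reg q'.B K K0 δ (T' / W ^ 20) (W * T')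
      · exact ⟨i, n', T', a0, b0, P, q', K, p1, p2, p3, p4, p5, .inr hr⟩
      obtain rfl := p6.resolve_right hr
      have i1 := p3.le
      have i2 : (i : ℝ) ≤ Fintype.card ι := Nat.cast_le.2 i1
      have i3 : n ≤ n' + i * (2 * J) := by exact_mod_cast p2.1
      have i4 : (2 * (i + 1) : ℝ) ≤ J := by exact_mod_cast (by omega : 2 * (i + 1) ≤ J)
      have i5 : (0 : ℝ) ≤ i := Nat.cast_nonneg i
      have i6 : i * (1 / J : ℝ) ≤ 1 / 2 := by
        rw [mul_one_div, div_le_div_iff₀ (by linarith) two_pos]; linarith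
      have l := Real.log_natCast_nonneg G
      have i7 : G ^ 27 ≤ T' := Nat.cast_le (α := ℝ).1 ((Real.log_le_log_iff
        (Nat.cast_pos.2 (Nat.pow_pos (by have := (ten_le h0 h1 g1).1; omega)))
        (Nat.cast_pos.2 p2.2.2.1)).1 (by
          rw [Nat.cast_pow, Real.log_pow, Nat.cast_ofNat]
          linarith [p2.2.2.2.2, mul_le_mul_of_nonneg_right i6 (Real.log_natCast_nonneg T),
            mul_le_mul_of_nonneg_right i2 l]))
      obtain ⟨n2, T2, a1, b1, P1, q2, K2, r1, r2, r3, r4, r5⟩ := step2 (J := J) hV hK h0 h1 g1 hW g2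
        g3 g4 hK0 g5 (p2.2.1.trans g6) (by omega)
        (by linarith [Nat.mul_le_mul_right (2 * J) i1]) i7
        ((Nat.mul_le_mul_left _ p2.2.2.2.1).trans hQ) hΨ (fun a b => hH (a0 + P a) (b0 + P b)) p3 p4 hr
      refine ⟨i + 1, n2, T2, a0 + P a1, b0 + P b1, P.comp P1, q2, K2, p1.comp r1,
        (p2.trans r2 (by positivity) (by positivity) ((div_le_one (by linarith)).2 (by linarith))
          (by positivity)).mono (by simp [add_mul]) (by simp [add_mul]) (by simp [add_mul]),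
        r3, r4, ?_, .inl rfl⟩
      simp only [map_add, ← add_assoc] at r5
      push_cast
      exact p5.trans ((add_le_add_left r5 _).trans (le_of_eq (by
        rw [add_assoc, add_mul, one_mul, add_comm (2 * _)]; rfl)))
  obtain ⟨i, n', T', a0, b0, P, q', K, p1, p2, p3, p4, p5, p6⟩ := st (Fintype.card ι + 1)
  exact ⟨i, n', T', a0, b0, P, q', K, p3.le, p1, p2, p4, p5,
    p6.resolve_left (by have := p3.le; omega)⟩

theorem err2 {Z G i : ℝ} (hZ : 4 ≤ Z) (hG : Real.exp (4 * Z) ≤ G) (hi : i ≤ Z) :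
    i * (2 * (Real.exp Z / G ^ 2)) ≤ Real.exp (-Z) / 2 := by
  have e4 : Z ≤ Real.exp Z := by linarith [Real.add_one_le_exp Z]
  have e5 : Real.exp (4 * Z) = Real.exp Z ^ 4 := by rw [← Real.exp_nat_mul]; rfl
  have e6 : (0 : ℝ) < Real.exp Z := Real.exp_pos Z
  rw [Real.exp_neg]
  refine le_trans (b := Real.exp Z * (2 * (Real.exp Z / (Real.exp Z ^ 4) ^ 2)))
    (by rw [← e5]; gcongr; linarith) ?_
  field_simp
  nlinarith [pow_le_pow_left₀ (by norm_num) (hZ.trans e4) 5]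

theorem rg2_of (hV : VIN) (hK : KILL) : RG2 := by
  refine ⟨2000, fun X Y Z Q _ n J T W K0 ι _ _ f θ lam κ δ q Ψ u v ⟨a1, a2, a3, _⟩ hn hJ hJ' hJn hc
    hW hT hQ hf hl hl' hK0 hκ hδ hΨ hu hv h => ?_⟩
  have hY : 2000 ≤ Y := le_trans (by simpa using a1) a2
  have hZ : 2000 ≤ Z := hY.trans a3
  have z1 : Z ^ (0 + 3) ≤ Z ^ 2000 := pow_le_pow_right₀ (by linarith) (by norm_num)
  have y1 : 16 * Y ^ 2 ≤ Y ^ 2000 := le_trans (by nlinarith)
    (pow_le_pow_right₀ (by linarith) (by norm_num : 3 ≤ 2000))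
  have z2 : 2000 * Z ≤ Z ^ 2000 := le_trans (by nlinarith)
    (pow_le_pow_right₀ (by linarith) (by norm_num : 2 ≤ 2000))
  generalize Y ^ 2000 = A at *
  generalize Z ^ 2000 = B at *
  have w0 : (1 : ℝ) ≤ W := (Real.one_le_exp (by linarith)).trans hW
  have w1 : 1 ≤ W := by exact_mod_cast w0
  have w2 := Real.log_nonneg w0
  obtain ⟨b1, b2, b3⟩ := big (k := 0) (G := W ^ 20) (by linarith : 10 ≤ Z) ((Real.exp_le_exp.2 z1).trans
    (hW.trans (Nat.cast_le.2 (Nat.le_self_pow (by norm_num) W))))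
  simp only [zero_add, pow_one] at b1 b2 b3
  have b4 : Real.exp (4 * Z) ≤ (W ^ 20 : ℕ) := (Real.exp_le_exp.2 (by nlinarith)).trans b1
  have b5 : Real.exp Z ≤ (W ^ 20 : ℕ) := (Real.exp_le_exp.2 (by linarith)).trans b4
  have b6 : Z ≤ Real.exp Z := by linarith [Real.add_one_le_exp Z]
  have lG : Real.log (W ^ 20 : ℕ) = 20 * Real.log W := by rw [Nat.cast_pow, Real.log_pow]; rfl
  have hJ1 : (1 : ℝ) ≤ J := by exact_mod_cast hJ
  have c0 : (0 : ℝ) ≤ Fintype.card ι := Nat.cast_nonneg _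
  have l1 : 2000 * Z * Real.log W ≤ Real.log T := (mul_le_mul_of_nonneg_right z2 w2).trans hT
  have l2 : B ≤ Real.log W := (Real.le_log_iff_exp_le (by linarith)).2 hW
  have l3 := mul_le_mul_of_nonneg_right hZ w2
  have l4 := mul_le_mul_of_nonneg_right (hc.trans a3) w2
  have t0 : 1 ≤ T := Nat.pos_of_ne_zero fun e => by
    rw [e, Nat.cast_zero, Real.log_zero] at l1; linarith
  have j1 : ((Fintype.card ι + 1 : ℝ)) * (2 * (2 * J * (Fintype.card ι + 1))) ≤ J * A :=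
    le_trans (b := (2 * Y) * (2 * (2 * J * (2 * Y)))) (by gcongr <;> linarith)
      (by linarith [mul_le_mul_of_nonneg_left y1 (by linarith : (0 : ℝ) ≤ J)])
  obtain ⟨i, n', T', a0, b0, P, q', K, p0, p1, p2, p3, p4, p5⟩ := iter2 (G := W ^ 20) (K0 := max K0 1)
    (J := 2 * J * (Fintype.card ι + 1)) (H := fun a b => u a * v b * (f (a + b) - θ))
    (M := Real.exp Z) hV hK q (Real.exp_pos _) (Real.exp_le_one_iff.2 (by linarith)) b2 w1 le_rfl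
    (Nat.cast_le (α := ℝ).1 (by linarith))
    (b3 _ _ (hc.trans a3) (by rw [Nat.cast_max]; exact max_le hK0 (by push_cast; linarith)))
    (le_max_right _ _) (hl'.trans b5) (Nat.cast_le (α := ℝ).1 (by linarith))
    (Nat.mul_le_mul_right _ (by omega)) (by exact_mod_cast j1.trans hJn) t0 (by rw [lG]; linarith)
    ((Nat.le_self_pow two_ne_zero _).trans hQ) hΨ fun a b => by
      rw [abs_mul, abs_of_nonneg (mul_nonneg (hu a).1 (hv b).1)]
      exact (mul_le_of_le_one_left (abs_nonneg _) (mul_le_one₀ (hu a).2 (hv b).1 (hv b).2)).trans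
        (hf _)
  have i1 : (i : ℝ) ≤ Fintype.card ι := Nat.cast_le.2 p0
  refine ⟨n', T', a0, b0, P, q', K, p1, p2.mono (le_trans ?_ j1) ?_ ?_, p3,
    p5.mono (le_max_left _ _) hδ le_rfl le_rfl, ?_⟩
  · push_cast; gcongr; linarith
  · push_cast
    rw [mul_one_div, div_le_div_iff₀ (by positivity) (by positivity)]
    nlinarith
  · rw [lG]; linarith [mul_le_mul_of_nonneg_right i1 w2, mul_le_mul_of_nonneg_right z2 w2]
  have e3 := err2 (by linarith) b4 (i1.trans (hc.trans a3))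
  simp only [RQ, avq, mul_right_comm _ (Ψ _), map_add, add_add_add_comm a0 (P _)] at p4 h ⊢
  linarith

end Vale.Agent.P057Z.Rg
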